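import Vale.Agent.P011.MPQ.GamFG
import Vale.Agent.P011.MPQ.I0b

/-!
The norm-one group of the quaternions which are integral outside `M` is cocompact and
commensurated.
-/

open NumberField IsDedekindDomain

namespace Vale.Agent.P011NQ

open Vale.Agent.P011 Vale.Agent.P011.MPQ Vale.Agent.P011.Arith Vale.Agent.P011.MPQ.FG

variable {F : Type} [Field F] [NumberField F] {a b : Fˣ}

/-- Cocompactness at the rational points. -/
theorem exists_coc (a b : Fˣ) (hab : Aniso a b) : ∃ M₀ : ℕ, M₀ ≠ 0 ∧ ∀ M : ℕ, M ≠ 0 → M₀ ∣ M →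
    ∀ hA : Adm a b (SM F M), ∃ B : HeightOneSpectrum (𝓞 F) ⊕ InfinitePlace F → ℝ,
      ∀ u ∈ SL1 a b, ∃ θ ∈ Gam a b (SM F M) hA, ∀ p ∈ TM F M,
        szv (pabv p) ((θ⁻¹ * u : (Qt a b)ˣ) : Qt a b) ≤ B p := by
  classical
  obtain ⟨M₀, hM₀, hgood⟩ := exists_good4 a b
  refine ⟨M₀, hM₀, fun M hM hdvd hA => ?_⟩
  obtain ⟨ρ, r₀, H₀, hG⟩ := hgood M hM hdvd
  obtain ⟨C, hC, hred⟩ := exists_red hab hG hA
  obtain ⟨Δ, hΔ, hΔ1, hΔi, hΔr⟩ := exists_reps (a := a) (b := b) M hM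
  have hB : ∀ p : HeightOneSpectrum (𝓞 F) ⊕ InfinitePlace F, ∃ B : ℝ, ∀ δ' ∈ Δ,
      (Kc (pabv p) a b ^ 2 * szv (pabv p) ((1 : (Qt a b)ˣ) : Qt a b) *
        szv (pabv p) ((δ'⁻¹ : (Qt a b)ˣ) : Qt a b)) ^ 2 * C p *
        (pabv p (nrd (δ' : Qt a b)) / pabv p (nrd ((1 : (Qt a b)ˣ) : Qt a b))) ≤ B := by
    intro p
    have hfin := hΔ.image (fun q : (Qt a b)ˣ =>
      (Kc (pabv p) a b ^ 2 * szv (pabv p) ((1 : (Qt a b)ˣ) : Qt a b) *
        szv (pabv p) ((q⁻¹ : (Qt a b)ˣ) : Qt a b)) ^ 2 * C p *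
        (pabv p (nrd (q : Qt a b)) / pabv p (nrd ((1 : (Qt a b)ˣ) : Qt a b))))
    obtain ⟨B, hB⟩ := hfin.bddAbove
    exact ⟨B, fun δ' hδ' => hB ⟨δ', hδ', rfl⟩⟩
  choose B hB using hB
  have hdec : ∀ x : (Qt a b)ˣ, IntQ (SM F M) (x : Qt a b) →
      IntQ (SM F M) ((x⁻¹ : (Qt a b)ˣ) : Qt a b) → ∃ θ ∈ Gam a b (SM F M) hA, ∃ δ ∈ Δ, ∃ ε : Fˣ,
        x = θ * δ * scU a b ε := by
    intro x h1 h2
    have hval : ∀ v ∉ SM F M, v.valuation F (nrd (x : Qt a b)) = 1 := by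
      intro v hv
      have h3 := (h1.nrd hA) v hv
      have h4 := (h2.nrd hA) v hv
      have h5 : nrd (x : Qt a b) * nrd ((x⁻¹ : (Qt a b)ˣ) : Qt a b) = 1 := by
        rw [← nrd_mul, Units.mul_inv, nrd_one]
      have h6 : v.valuation F (nrd (x : Qt a b)) *
          v.valuation F (nrd ((x⁻¹ : (Qt a b)ˣ) : Qt a b)) = 1 := by
        rw [← map_mul, h5, map_one]
      exact eq_one_of_one_le_mul_left h3 h4 h6.ge
    obtain ⟨δ, hδ, ε, hε⟩ := hΔr x hval h1 h2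
    have hsc : ∀ η : Fˣ, nrdU a b (scU a b η) = η ^ 2 := by
      intro η
      ext
      rw [nrdU_coe, scU_coe, nrd_smul, nrd_one, mul_one, Units.val_pow_eq_pow_val]
    have hvε : ∀ v ∉ SM F M, v.valuation F (ε : F) = 1 := by
      intro v hv
      have h3 : v.valuation F (nrd (δ : Qt a b)) = 1 := by
        have h3 := ((hΔi δ hδ).1.nrd hA) v hv
        have h4 := ((hΔi δ hδ).2.nrd hA) v hv
        have h5 : nrd (δ : Qt a b) * nrd ((δ⁻¹ : (Qt a b)ˣ) : Qt a b) = 1 := by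
          rw [← nrd_mul, Units.mul_inv, nrd_one]
        have h6 : v.valuation F (nrd (δ : Qt a b)) *
            v.valuation F (nrd ((δ⁻¹ : (Qt a b)ˣ) : Qt a b)) = 1 := by
          rw [← map_mul, h5, map_one]
        exact eq_one_of_one_le_mul_left h3 h4 h6.ge
      have h4 : nrd (x : Qt a b) = nrd (δ : Qt a b) * (ε : F) ^ 2 := by
        rw [← nrdU_coe, hε, Units.val_mul, nrdU_coe, Units.val_pow_eq_pow_val]
      have h5 := hval v hv
      rw [h4, map_mul, h3, one_mul, map_pow] at h5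
      exact (pow_eq_one_iff_of_nonneg zero_le two_ne_zero).mp h5
    refine ⟨x * (scU a b ε)⁻¹ * δ⁻¹, ?_, δ, hδ, ε, ?_⟩
    · rw [mem_Gam]
      constructor
      · have h3 : nrdU a b (x * (scU a b ε)⁻¹ * δ⁻¹) = 1 := by
          rw [map_mul, map_mul, map_inv, map_inv, hsc, hε, mul_inv_cancel_right, mul_inv_cancel]
        have h4 := congrArg (Units.val) h3
        rwa [nrdU_coe] at h4
      · have h3 : ((x * (scU a b ε)⁻¹ * δ⁻¹ : (Qt a b)ˣ) : Qt a b) =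
            ((ε : F)⁻¹) • ((x : Qt a b) * ((δ⁻¹ : (Qt a b)ˣ) : Qt a b)) := by
          rw [Units.val_mul, Units.val_mul, ← map_inv, scU_coe, Units.val_inv_eq_inv_val,
            mul_smul_comm, mul_one, smul_mul_assoc]
        rw [h3]
        refine IntQ.smul (fun v hv => ?_) (h1.mul hA (hΔi δ hδ).2)
        rw [map_inv₀, hvε v hv, inv_one]
    · have hcomm : ∀ z : (Qt a b)ˣ, (scU a b ε)⁻¹ * z = z * (scU a b ε)⁻¹ := by
        intro z
        ext1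
        rw [Units.val_mul, Units.val_mul, ← map_inv, scU_coe, smul_mul_assoc, one_mul,
          mul_smul_comm, mul_one]
      rw [mul_assoc x, hcomm, mul_assoc, mul_assoc, mul_assoc]
      rw [← mul_assoc δ⁻¹ ((scU a b ε)⁻¹)]
      rw [← hcomm δ⁻¹]
      simp [mul_assoc, hcomm]
  refine ⟨fun p => 1 + |B p|, fun u' hu' => ?_⟩
  set u : (Qt a b)ˣ := u'⁻¹ with hudef
  have hu1 : nrd (u : Qt a b) = 1 := inv_mem hu'
  obtain ⟨K, hK⟩ : ∃ K : ℕ, ∀ p ∈ TM F M, szv (pabv p) (u : Qt a b) ≤ 2 ^ K := by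
    have h : ∀ p ∈ TM F M, ∀ᶠ k : ℕ in Filter.atTop, szv (pabv p) (u : Qt a b) ≤ 2 ^ k := by
      intro p _
      exact (tendsto_pow_atTop_atTop_of_one_lt (one_lt_two (α := ℝ))).eventually_ge_atTop _
    exact ((Filter.eventually_all_finite (finite_TM M hM)).mpr h).exists
  set c : ℝ := 2 ^ K with hc
  have hc1 : 1 ≤ c := one_le_pow₀ one_le_two
  have hc0 : 0 < c := by linarith
  obtain ⟨y, hy⟩ := hred (u : Qt a b) c hc0
  obtain ⟨θ, hθ, δ, hδ, ε, e⟩ := hdec y hy.int hy.int'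
  refine ⟨θ, hθ, fun p hp => ?_⟩
  have h1 := hy.bd p hp
  have hW : Wv (pabv p) c (u : Qt a b) ≤ c ^ 2 := by
    refine max_le (one_le_pow₀ hc1) (max_le ?_ ?_)
    · rw [sq]
      exact mul_le_mul_of_nonneg_left (hK p hp) hc0.le
    · rw [hu1, map_one, mul_one]
  have h2 : (c * szv (pabv p) ((u : Qt a b) * (y : Qt a b))) ^ 2 ≤
      Nv (pabv p) c (u : Qt a b) (y : Qt a b) ^ 2 :=
    pow_le_pow_left₀ (mul_nonneg hc0.le (szv_nonneg _ _)) (cszv_le_Nv _ _ _ _) 2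
  have hCp : 0 ≤ C p := zero_le_one.trans (hC p)
  have h3 : C p * (pabv p (nrd (y : Qt a b)) * Wv (pabv p) c (u : Qt a b)) ≤
      C p * (pabv p (nrd (y : Qt a b)) * c ^ 2) :=
    mul_le_mul_of_nonneg_left (mul_le_mul_of_nonneg_left hW ((pabv p).nonneg _)) hCp
  have h4 : szv (pabv p) ((u'⁻¹ * y : (Qt a b)ˣ) : Qt a b) ^ 2 ≤
      C p * pabv p (nrd ((u'⁻¹ * y : (Qt a b)ˣ) : Qt a b)) := by
    rw [← hudef, Units.val_mul, nrd_mul, hu1, one_mul]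
    have h5 : szv (pabv p) ((u : Qt a b) * (y : Qt a b)) ^ 2 * c ^ 2 ≤
        C p * pabv p (nrd (y : Qt a b)) * c ^ 2 := by
      calc _ = (c * szv (pabv p) ((u : Qt a b) * (y : Qt a b))) ^ 2 := by ring
        _ ≤ _ := h2.trans (h1.trans h3)
        _ = _ := by ring
    exact le_of_mul_le_mul_right h5 (by positivity)
  have h6 := (transition (pabv p) (θ := u') (δ := 1) (ε := 1) h4
    (by rw [map_one, mul_one, mul_one]) e (by ext; exact hu') (by ext; exact hθ.1)).trans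
    (hB p δ hδ)
  have h7 : nrd ((u'⁻¹ * θ : (Qt a b)ˣ) : Qt a b) = 1 := by
    rw [← hudef, Units.val_mul, nrd_mul, hu1, hθ.1, one_mul]
  have h8 : θ⁻¹ * u' = (u'⁻¹ * θ)⁻¹ := by group
  rw [h8, inv_eq_cj h7, szv_cj]
  have h9 := le_abs_self (B p)
  have h10 := szv_nonneg (pabv p) ((u'⁻¹ * θ : (Qt a b)ˣ) : Qt a b)
  by_contra h11
  rw [not_le] at h11
  nlinarith [abs_nonneg (B p)]

theorem relIndex_of_fin {L : Type} [Group L] (D : Subgroup L) (n : L) (Φ : Set L) (hΦ : Φ.Finite)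
    (h : ∀ x ∈ D, ∃ θ ∈ D, θ⁻¹ * (n * x) ∈ Φ) :
    (D.comap (MulAut.conj n).toMonoidHom).relIndex D ≠ 0 := by
  choose θ hθ1 hθ2 using h
  have _hf : Finite Φ := hΦ
  let H := (D.comap (MulAut.conj n).toMonoidHom).subgroupOf D
  let f : D → Φ := fun x => ⟨_, hθ2 (x : L)⁻¹ (inv_mem x.2)⟩
  have hf : Finite (D ⧸ H) := by
    refine Finite.of_injective (fun q : D ⧸ H => f q.out) fun q q' e => ?_
    rw [← q.out_eq, ← q'.out_eq]
    refine QuotientGroup.eq.mpr ?_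
    have e1 : (θ _ (inv_mem q.out.2))⁻¹ * (n * (q.out : L)⁻¹) =
        (θ _ (inv_mem q'.out.2))⁻¹ * (n * (q'.out : L)⁻¹) := congrArg Subtype.val e
    have e2 : n * ((q.out : L)⁻¹ * (q'.out : L)) * n⁻¹ =
        θ _ (inv_mem q.out.2) * (θ _ (inv_mem q'.out.2))⁻¹ := by
      calc n * ((q.out : L)⁻¹ * (q'.out : L)) * n⁻¹ = θ _ (inv_mem q.out.2) *
            ((θ _ (inv_mem q.out.2))⁻¹ * (n * (q.out : L)⁻¹)) * (q'.out : L) * n⁻¹ := by group
        _ = _ := by rw [e1]; group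
    change n * ((q.out : L)⁻¹ * (q'.out : L)) * n⁻¹ ∈ D
    rw [e2]
    exact mul_mem (hθ1 _ _) (inv_mem (hθ1 _ _))
  exact Subgroup.index_ne_zero_of_finite

/-- Commensuration. -/
theorem comm_of_coc {M : ℕ} (hM : M ≠ 0) (hA : Adm a b (SM F M))
    (B : HeightOneSpectrum (𝓞 F) ⊕ InfinitePlace F → ℝ)
    (hB : ∀ u ∈ SL1 a b, ∃ θ ∈ Gam a b (SM F M) hA, ∀ p ∈ TM F M,
      szv (pabv p) ((θ⁻¹ * u : (Qt a b)ˣ) : Qt a b) ≤ B p) (n : SL1 a b) :
    (((Gam a b (SM F M) hA).subgroupOf (SL1 a b)).comap (MulAut.conj n).toMonoidHom).relIndex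
      ((Gam a b (SM F M) hA).subgroupOf (SL1 a b)) ≠ 0 := by
  obtain ⟨m, hm0, hm⟩ := exists_den_co ((n : (Qt a b)ˣ) : Qt a b)
  have hmF : (m : F) ≠ 0 := Nat.cast_ne_zero.mpr hm0
  have hmn : IntQ (SM F M) ((m : F) • ((n : (Qt a b)ˣ) : Qt a b)) := by
    rw [intQ_iff_co]
    intro k
    rw [co4_smul]
    exact (hm k).mono (Set.empty_subset _)
  let g : SL1 a b → Qt a b := fun u => (m : F) • ((u : (Qt a b)ˣ) : Qt a b)
  have hg : Function.Injective g := fun u u' e =>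
    Subtype.ext (Units.ext (smul_right_injective _ hmF e))
  refine relIndex_of_fin _ n _
    ((finite_bounded' a b M hM fun p => pabv p (m : F) * B p).preimage hg.injOn) fun x hx => ?_
  obtain ⟨θ, hθ, hb⟩ := hB _ (n * x).2
  refine ⟨⟨θ, hθ.1⟩, hθ, ?_, fun p hp => ?_⟩
  · have e : g ((⟨θ, hθ.1⟩ : SL1 a b)⁻¹ * (n * x)) = ((θ⁻¹ : (Qt a b)ˣ) : Qt a b) *
        (((m : F) • ((n : (Qt a b)ˣ) : Qt a b)) * ((x : (Qt a b)ˣ) : Qt a b)) := by
      rw [smul_mul_assoc, mul_smul_comm]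
      rfl
    rw [e]
    exact (mem_Gam.mp (inv_mem hθ)).2.mul hA (hmn.mul hA ((mem_Gam (hA := hA)).mp hx).2)
  · change szv (pabv p) ((m : F) • _) ≤ _
    rw [szv_smul]
    exact mul_le_mul_of_nonneg_left (hb p hp) ((pabv p).nonneg _)

end Vale.Agent.P011NQ
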