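import Mathlib

/-!
Products of the groups `SL₂` over locally compact fields.
-/

open Matrix Matrix.SpecialLinearGroup Topology
open scoped MatrixGroups commutatorElement

namespace Vale.Agent.P011NQ

section one

variable {R : Type} [Field R] [CharZero R]

theorem sl2_perfect : commutator SL(2, R) = ⊤ :=
  SL2.commutator_eq_top (a := 2) two_ne_zero (by norm_num)

theorem sl2_normal (N : Subgroup SL(2, R)) [N.Normal] (hN : ¬ N ≤ Subgroup.center SL(2, R)) :
    N = ⊤ := by
  have hs := Matrix.ProjectiveSpecialLinearGroup.rank_two_simple' (F := R)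
    ⟨2, two_ne_zero, by norm_num⟩
  let π := QuotientGroup.mk' (Subgroup.center SL(2, R))
  have hn : (N.map π).Normal := Subgroup.Normal.map inferInstance π (QuotientGroup.mk'_surjective _)
  rcases hs.eq_bot_or_eq_top_of_normal (N.map π) hn with h | h
  · exfalso
    apply hN
    rw [Subgroup.map_eq_bot_iff, QuotientGroup.ker_mk'] at h
    exact h
  · rw [eq_top_iff, ← sl2_perfect, commutator_def, Subgroup.commutator_le]
    intro g _ k _
    obtain ⟨n, hn, e⟩ : π g ∈ N.map π := h ▸ Subgroup.mem_top _
    have hz : n⁻¹ * g ∈ Subgroup.center SL(2, R) := QuotientGroup.eq.mp e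
    have h1 := Subgroup.mem_center_iff.mp hz k
    have h2 : ⁅g, k⁆ = n * (k * n⁻¹ * k⁻¹) := by
      rw [commutatorElement_def]
      calc g * k * g⁻¹ * k⁻¹ = n * (n⁻¹ * g * k) * g⁻¹ * k⁻¹ := by group
        _ = n * (k * (n⁻¹ * g)) * g⁻¹ * k⁻¹ := by rw [h1]
        _ = _ := by group
    rw [h2]
    exact mul_mem hn (Subgroup.Normal.conj_mem inferInstance _ (inv_mem hn) k)

omit [CharZero R] in
theorem diag_trans {i j : Fin 2} (h : i ≠ j) {c : R} (hc : c ≠ 0) (s : R) :
    transvection h (c ^ 2 * s) = diag2n h c hc * transvection h s * (diag2n h c hc)⁻¹ := by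
  rw [eq_mul_inv_iff_mul_eq]
  refine Subtype.ext <| Matrix.ext fun k l => ?_
  fin_cases i <;> fin_cases j <;> first
    | exact absurd rfl h
    | (fin_cases k <;> fin_cases l <;>
        simp [transvection_coe, diag2n_coe] <;> field_simp)

end one

section top

variable {R : Type} [NontriviallyNormedField R]

/-- The matrices with bounded entries. -/
def Bx (R : Type) [NontriviallyNormedField R] (B : ℝ) : Set SL(2, R) :=
  {g | ∀ j k, ‖g.1 j k‖ ≤ B}

theorem isCompact_Bx [ProperSpace R] (B : ℝ) : IsCompact (Bx R B) := by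
  have h : IsCompact (Set.univ.pi fun _ : Fin 2 => Set.univ.pi fun _ : Fin 2 =>
      Metric.closedBall (0 : R) B) :=
    isCompact_univ_pi fun _ => isCompact_univ_pi fun _ => isCompact_closedBall _ _
  have h2 := (isClosedEmbedding_val (n := Fin 2) (R := R)).isCompact_preimage h
  have e : Bx R B = Subtype.val ⁻¹' (Set.univ.pi fun _ : Fin 2 => Set.univ.pi fun _ : Fin 2 =>
      Metric.closedBall (0 : R) B) := by
    ext g
    constructor
    · intro hg j _ k _
      exact mem_closedBall_zero_iff.mpr (hg j k)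
    · intro hg j k
      exact mem_closedBall_zero_iff.mp (hg j (Set.mem_univ _) k (Set.mem_univ _))
  rw [e]
  exact h2

theorem exists_gen : ∃ B : ℝ, 1 ≤ B ∧ Subgroup.closure (Bx R B) = ⊤ := by
  obtain ⟨c, hc⟩ := NontriviallyNormedField.non_trivial (α := R)
  have hc0 : c ≠ 0 := by
    rintro rfl
    rw [norm_zero] at hc
    linarith
  have hci : ‖c⁻¹‖ ≤ ‖c‖ := by
    rw [norm_inv]
    exact (inv_le_one_of_one_le₀ hc.le).trans hc.le
  refine ⟨‖c‖, hc.le, ?_⟩
  rw [eq_top_iff]
  intro g _
  refine SL2.transvection_induction (fun g => g ∈ Subgroup.closure (Bx R ‖c‖)) ?_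
    (fun _ _ => mul_mem) g
  intro i j h
  have hd : diag2n h c hc0 ∈ Subgroup.closure (Bx R ‖c‖) := by
    refine Subgroup.subset_closure fun k l => ?_
    rw [diag2n_coe, diagonal_apply]
    split_ifs
    · exact le_rfl
    · exact hci
    · rw [norm_one]; exact hc.le
    · rw [norm_zero]; exact norm_nonneg _
  have key : ∀ n : ℕ, ∀ t : R, ‖t‖ ≤ (‖c‖ ^ 2) ^ n →
      transvection h t ∈ Subgroup.closure (Bx R ‖c‖) := by
    intro n
    induction n with
    | zero =>
      intro t ht
      rw [pow_zero] at ht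
      refine Subgroup.subset_closure fun k l => ?_
      refine le_trans ?_ hc.le
      fin_cases i <;> fin_cases j <;> first
        | exact absurd rfl h
        | (fin_cases k <;> fin_cases l <;> simp [transvection_coe, ht])
    | succ n ih =>
      intro t ht
      have e : t = c ^ 2 * (t / c ^ 2) := by field_simp
      rw [e, diag_trans h hc0]
      refine mul_mem (mul_mem hd (ih _ ?_)) (inv_mem hd)
      rw [norm_div, norm_pow, div_le_iff₀ (by positivity), ← pow_succ]
      exact ht
  intro t
  have h1 : 1 < ‖c‖ ^ 2 := by nlinarith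
  obtain ⟨n, hn⟩ := pow_unbounded_of_one_lt ‖t‖ h1
  exact key n t hn.le

end top

section prod

variable {I : Type} [Finite I] {G : I → Type} [∀ i, Group (G i)]

theorem pi_eq_top [DecidableEq I] (H : Subgroup (∀ i, G i))
    (h : ∀ i, H.comap (MonoidHom.mulSingle G i) = ⊤) : H = ⊤ := by
  rw [eq_top_iff]
  intro x _
  refine Submonoid.pi_mem_of_mulSingle_mem x fun i => ?_
  have : x i ∈ H.comap (MonoidHom.mulSingle G i) := by rw [h]; exact Subgroup.mem_top _
  exact this

theorem pi_normal (hp : ∀ i, commutator (G i) = ⊤) (H : Subgroup (∀ i, G i)) [H.Normal]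
    (h : ∀ i, H.map (Pi.evalMonoidHom G i) = ⊤) : H = ⊤ := by
  classical
  refine pi_eq_top H fun i => ?_
  rw [eq_top_iff, ← hp i, commutator_def, Subgroup.commutator_le]
  intro g _ k _
  obtain ⟨n, hn, e⟩ : g ∈ H.map (Pi.evalMonoidHom G i) := by rw [h]; exact Subgroup.mem_top _
  have e' : n i = g := e
  have h2 : MonoidHom.mulSingle G i ⁅g, k⁆ =
      n * (Pi.mulSingle i k * n⁻¹ * (Pi.mulSingle i k)⁻¹) := by
    funext j
    by_cases hj : j = i
    · subst hj
      simp [commutatorElement_def, e', mul_assoc]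
    · simp [commutatorElement_def, Pi.mulSingle_eq_of_ne hj]
  rw [Subgroup.mem_comap, h2]
  exact mul_mem hn (Subgroup.Normal.conj_mem inferInstance _ (inv_mem hn) _)

theorem pi_add_zero (hp : ∀ i, commutator (G i) = ⊤) (χ : (∀ i, G i) → ℝ)
    (hχ : ∀ x y, χ (x * y) = χ x + χ y) (x : ∀ i, G i) : χ x = 0 := by
  classical
  let f : (∀ i, G i) →* Multiplicative ℝ := MonoidHom.mk' (fun x => Multiplicative.ofAdd (χ x))
    (fun x y => by rw [hχ, ofAdd_add])
  have h : f.ker = ⊤ := by
    refine pi_eq_top _ fun i => ?_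
    rw [eq_top_iff, ← hp i, commutator_def, Subgroup.commutator_le]
    intro g _ k _
    rw [Subgroup.mem_comap, MonoidHom.mem_ker, map_commutatorElement, map_commutatorElement,
      commutatorElement_eq_one_iff_mul_comm, mul_comm]
  have : x ∈ f.ker := by rw [h]; exact Subgroup.mem_top _
  exact this

end prod

section prodtop

variable {I : Type} [Finite I] {R : I → Type} [∀ i, NontriviallyNormedField (R i)]

theorem pi_gen [∀ i, ProperSpace (R i)] :
    ∃ W : Set (∀ i, SL(2, R i)), IsCompact W ∧ Subgroup.closure W = ⊤ := by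
  classical
  choose B hB1 hB2 using fun i => exists_gen (R := R i)
  refine ⟨Set.univ.pi fun i => Bx (R i) (B i), isCompact_univ_pi fun i => isCompact_Bx _, ?_⟩
  refine pi_eq_top _ fun i => ?_
  rw [eq_top_iff, ← hB2 i, Subgroup.closure_le]
  intro g hg
  refine Subgroup.subset_closure fun j _ => ?_
  by_cases hj : j = i
  · subst hj
    simpa using hg
  · have : MonoidHom.mulSingle (fun i => SL(2, R i)) i g j = 1 :=
      Pi.mulSingle_eq_of_ne (M := fun i => SL(2, R i)) hj g
    rw [this]
    intro k l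
    refine le_trans ?_ (hB1 j)
    fin_cases k <;> fin_cases l <;> simp

theorem pi_trans [DecidableEq I] (H : Subgroup (∀ i, SL(2, R i)))
    (h : ∀ (i : I) (j k : Fin 2) (hjk : j ≠ k) (t : R i),
      Pi.mulSingle i (transvection hjk t) ∈ H) : H = ⊤ := by
  refine pi_eq_top H fun i => ?_
  rw [eq_top_iff]
  intro g _
  exact SL2.transvection_induction
    (fun g => g ∈ H.comap (MonoidHom.mulSingle (fun i => SL(2, R i)) i))
    (fun j k hjk t => h i j k hjk t) (fun _ _ => mul_mem) g

end prodtop

end Vale.Agent.P011NQ
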