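import Vale.Agent.P011.MPQ.ELocal
import Vale.Agent.P011.MPQ.FGFin
import Vale.Agent.P011NQ.SL2

/-!
The norm-one group of a quaternion algebra and its completions at split places.
-/

open Matrix Matrix.SpecialLinearGroup Topology
open scoped MatrixGroups Quaternion

namespace Vale.Agent.P011NQ

open Vale.Agent.P011.MPQ

section dich

theorem split_of_iso {R : Type} [Field R] [CharZero R] {a b : R} (ha : a ≠ 0) (c : Fin 4 → R)
    (hc : c ≠ 0) (h : c 0 ^ 2 - a * c 1 ^ 2 - b * c 2 ^ 2 + a * b * c 3 ^ 2 = 0) :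
    ∃ x y : R, b = x ^ 2 - a * y ^ 2 := by
  have hsq : ∀ s : R, a = s ^ 2 → ∃ x y : R, b = x ^ 2 - a * y ^ 2 := by
    intro s hs
    have hs0 : s ≠ 0 := by
      rintro rfl
      exact ha (by rw [hs]; ring)
    refine ⟨(b + 1) / 2, (b - 1) / (2 * s), ?_⟩
    rw [hs]
    field_simp
    ring
  by_cases hn : c 2 ^ 2 - a * c 3 ^ 2 = 0
  · by_cases h3 : c 3 = 0
    · have h2 : c 2 = 0 := by
        rw [h3] at hn
        exact pow_eq_zero_iff two_ne_zero |>.mp (by linear_combination hn)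
      have h1 : c 1 ≠ 0 := by
        intro h1
        have h0 : c 0 = 0 := by
          rw [h1, h2, h3] at h
          exact pow_eq_zero_iff two_ne_zero |>.mp (by linear_combination h)
        apply hc
        funext k
        fin_cases k
        · exact h0
        · exact h1
        · exact h2
        · exact h3
      refine hsq (c 0 / c 1) ?_
      rw [h2, h3] at h
      field_simp
      linear_combination -h
    · refine hsq (c 2 / c 3) ?_
      field_simp
      linear_combination -hn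
  · refine ⟨(c 0 * c 2 - a * c 1 * c 3) / (c 2 ^ 2 - a * c 3 ^ 2),
      (c 1 * c 2 - c 0 * c 3) / (c 2 ^ 2 - a * c 3 ^ 2), ?_⟩
    field_simp
    linear_combination (-(c 2 ^ 2 - a * c 3 ^ 2)) * h

/-- A quaternion algebra over a locally compact field is split, or its norm-one group is
bounded. -/
theorem dichotomy {R : Type} [NontriviallyNormedField R] [ProperSpace R] [CharZero R] {a b : R}
    (ha : a ≠ 0) : (∃ x y : R, b = x ^ 2 - a * y ^ 2) ∨ ∃ B : ℝ, ∀ c : Fin 4 → R,
      c 0 ^ 2 - a * c 1 ^ 2 - b * c 2 ^ 2 + a * b * c 3 ^ 2 = 1 → ‖c‖ ≤ B := by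
  by_cases hs : ∃ x y : R, b = x ^ 2 - a * y ^ 2
  · exact Or.inl hs
  right
  let n : (Fin 4 → R) → R := fun c => c 0 ^ 2 - a * c 1 ^ 2 - b * c 2 ^ 2 + a * b * c 3 ^ 2
  have hn : Continuous fun c => ‖n c‖ := by fun_prop
  obtain ⟨t, ht⟩ := NontriviallyNormedField.non_trivial (α := R)
  let S : Set (Fin 4 → R) := Metric.closedBall 0 1 ∩ {c | 1 / ‖t‖ ≤ ‖c‖}
  have hS : IsCompact S :=
    (isCompact_closedBall _ _).inter_right (isClosed_le continuous_const continuous_norm)
  have hpos : ∀ c ∈ S, 0 < ‖n c‖ := by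
    intro c hc
    rw [norm_pos_iff]
    intro h0
    refine hs (split_of_iso ha c ?_ h0)
    rintro rfl
    have h1 : 1 / ‖t‖ ≤ ‖(0 : Fin 4 → R)‖ := hc.2
    rw [norm_zero] at h1
    have : 0 < 1 / ‖t‖ := by positivity
    linarith
  obtain ⟨μ, hμ, hμ'⟩ : ∃ μ : ℝ, 0 < μ ∧ ∀ c ∈ S, μ ≤ ‖n c‖ := by
    rcases S.eq_empty_or_nonempty with h | h
    · exact ⟨1, one_pos, fun c hc => by rw [h] at hc; exact hc.elim⟩
    · obtain ⟨c₀, hc₀, hmin⟩ := hS.exists_isMinOn h hn.continuousOn
      exact ⟨_, hpos c₀ hc₀, fun c hc => hmin hc⟩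
  refine ⟨1 + μ⁻¹, fun c hc => ?_⟩
  have hc0 : c ≠ 0 := by
    rintro rfl
    simp at hc
  obtain ⟨d, hd0, hd1, hd2, -⟩ := rescale_to_shell ht one_pos hc0
  have hmem : d • c ∈ S := ⟨mem_closedBall_zero_iff.mpr hd1.le, hd2⟩
  have h1 := hμ' _ hmem
  have h2 : n (d • c) = d ^ 2 := by
    simp only [n, Pi.smul_apply, smul_eq_mul]
    linear_combination d ^ 2 * hc
  rw [h2, norm_pow] at h1
  rw [norm_smul] at hd1
  have hd : 0 < ‖d‖ := norm_pos_iff.mpr hd0
  have hc' := norm_nonneg c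
  by_contra hlt
  rw [not_le] at hlt
  have hi : 0 < μ⁻¹ := inv_pos.mpr hμ
  have h3 : 1 < ‖c‖ := by linarith
  have h4 : μ⁻¹ < ‖c‖ := by linarith
  have h5 : μ * ‖c‖ ^ 2 ≤ (‖d‖ * ‖c‖) ^ 2 := by
    rw [mul_pow]
    exact mul_le_mul_of_nonneg_right h1 (sq_nonneg _)
  have h6 : (‖d‖ * ‖c‖) ^ 2 < 1 := by
    have : 0 ≤ ‖d‖ * ‖c‖ := by positivity
    nlinarith
  have h7 : 1 < μ * ‖c‖ := by
    rw [inv_lt_iff_one_lt_mul₀' hμ] at h4
    exact h4
  nlinarith

end dich

section hom

variable {F : Type} [Field F] {a b : Fˣ} {R : Type} [Field R] [CharZero R]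

/-- The matrix of an element of the norm-one group at a split place. -/
def toS (φ : F →+* R) {x y : R} (h : φ b = x ^ 2 - φ a * y ^ 2) : SL1 a b →* SL(2, R) :=
  MonoidHom.mk' (fun u => ⟨toM (φ a) x y (mapQ φ ((u : (Qt a b)ˣ) : Qt a b)), by
    rw [det_toM h]
    have h1 : nrd ((u : (Qt a b)ˣ) : Qt a b) = 1 := u.2
    have h2 := congrArg φ h1
    simp only [nrd, map_add, map_sub, map_mul, map_pow, map_one] at h2
    exact h2⟩) (fun u u' => Subtype.ext (by
      change toM (φ a) x y (mapQ φ (((u : (Qt a b)ˣ) : Qt a b) * ((u' : (Qt a b)ˣ) : Qt a b))) = _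
      rw [map_mul, toM_mul h]
      rfl))

omit [CharZero R] in
theorem toS_val (φ : F →+* R) {x y : R} (h : φ b = x ^ 2 - φ a * y ^ 2) (u : SL1 a b) :
    (toS φ h u).1 = toM (φ a) x y (mapQ φ ((u : (Qt a b)ˣ) : Qt a b)) := rfl

theorem toS_injective (φ : F →+* R) {x y : R} (h : φ b = x ^ 2 - φ a * y ^ 2) :
    Function.Injective (toS φ h) := by
  intro u u' e
  have ha : φ a ≠ 0 := (map_ne_zero φ).mpr a.ne_zero
  have hb : φ b ≠ 0 := (map_ne_zero φ).mpr b.ne_zero
  have h1 := congrArg (fun g : SL(2, R) => ofM (φ a) x y (φ b) g.1) e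
  simp only [toS_val, ofM_toM h ha hb] at h1
  exact Subtype.ext (Units.ext (mapQ_injective φ h1))

theorem toS_center (φ : F →+* R) {x y : R} (h : φ b = x ^ 2 - φ a * y ^ 2) (u : SL1 a b)
    (hu : toS φ h u ∈ Subgroup.center SL(2, R)) : u ∈ Subgroup.center (SL1 a b) := by
  rw [Subgroup.mem_center_iff] at hu ⊢
  intro g
  apply toS_injective φ h
  rw [map_mul, map_mul, hu]

/-- The element of the norm-one group with given stereographic coordinates. -/
noncomputable def cfU (hab : Aniso a b) (p : Fin 3 → F) : SL1 a b :=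
  ⟨FG.mkU (e_cf (a : F) b p) (by
      have h : 1 + pn (a : F) b p ≠ 0 := by
        intro h0
        have h1 := hab ⟨1, p 0, p 1, p 2⟩ (by
          simp only [nrd]
          simp only [pn] at h0
          linear_combination h0)
        exact one_ne_zero (α := F) (congrArg QuaternionAlgebra.re h1)
      have h2 := (norm_one_iff _).mp (cf_norm h)
      have h3 : nrd (a := a) (b := b) (e_cf (a : F) b p) = 1 := h2
      rw [h3]
      exact one_ne_zero), by
    have h : 1 + pn (a : F) b p ≠ 0 := by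
      intro h0
      have h1 := hab ⟨1, p 0, p 1, p 2⟩ (by
        simp only [nrd]
        simp only [pn] at h0
        linear_combination h0)
      exact one_ne_zero (α := F) (congrArg QuaternionAlgebra.re h1)
    exact (norm_one_iff _).mp (cf_norm h)⟩

theorem cfU_val (hab : Aniso a b) (p : Fin 3 → F) :
    (((cfU hab p : SL1 a b) : (Qt a b)ˣ) : Qt a b) = e_cf (a : F) b p := rfl

end hom

section prod

variable {F : Type} [Field F] {a b : Fˣ} {I : Type} [Finite I] {R : I → Type}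
  [∀ i, NontriviallyNormedField (R i)] [∀ i, CharZero (R i)]
  (φ : ∀ i, F →+* R i) {x y : ∀ i, R i} (h : ∀ i, φ i b = x i ^ 2 - φ i a * y i ^ 2)

/-- The diagonal map to the product of the completions. -/
def toP : SL1 a b →* ∀ i, SL(2, R i) := MonoidHom.pi fun i => toS (φ i) (h i)

omit [Finite I] [∀ i, CharZero (R i)] in
theorem toP_apply (u : SL1 a b) (i : I) : toP φ h u i = toS (φ i) (h i) u := rfl

omit [Finite I] in
theorem mem_closure_toP (hab : Aniso a b) (hd : DenseRange fun (t : F) (i : I) => φ i t)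
    (g : ∀ i, SL(2, R i)) (hg : ∀ i, (g i).1 0 0 + (g i).1 1 1 ≠ -2) :
    g ∈ closure (Set.range (toP φ h)) := by
  have ha : ∀ i, φ i a ≠ 0 := fun i => (map_ne_zero (φ i)).mpr a.ne_zero
  have hb : ∀ i, φ i b ≠ 0 := fun i => (map_ne_zero (φ i)).mpr b.ne_zero
  have hex : ∀ i, ∃ p : Fin 3 → R i, 1 + pn (φ i a) (φ i b) p ≠ 0 ∧
      e_cf (φ i a) (φ i b) p = ofM (φ i a) (x i) (y i) (φ i b) (g i).1 := by
    intro i
    refine exists_cf ?_ ?_
    · rw [norm_one_iff, ← det_toM (h i), toM_ofM (h i) (ha i) (hb i)]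
      exact (g i).2
    · intro h0
      apply hg i
      change ((g i).1 0 0 + (g i).1 1 1) / 2 = -1 at h0
      field_simp at h0
      linear_combination h0
  choose p hp1 hp2 using hex
  let val : (∀ i, SL(2, R i)) → ∀ i, Matrix (Fin 2) (Fin 2) (R i) := Pi.map fun _ => Subtype.val
  have hval : IsInducing val := IsInducing.piMap fun i => IsInducing.subtypeVal
  rw [hval.closure_eq_preimage_closure_image, Set.mem_preimage]
  let Φ : (Fin 3 → ∀ i, R i) → ∀ i, Matrix (Fin 2) (Fin 2) (R i) := fun q i =>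
    toM (φ i a) (x i) (y i) (e_cf (φ i a) (φ i b) fun k => q k i)
  let q₀ : Fin 3 → ∀ i, R i := fun k i => p i k
  have hΦ : ContinuousAt Φ q₀ := by
    refine continuousAt_pi.mpr fun i => ?_
    have h0 : 1 + pn (φ i a) (φ i b) (fun k => q₀ k i) ≠ 0 := hp1 i
    have hpn : Continuous fun q : Fin 3 → ∀ i, R i => pn (φ i a) (φ i b) fun k => q k i := by
      simp only [pn]
      fun_prop
    have hc : ∀ k : Fin 3, ContinuousAt (fun q : Fin 3 → ∀ i, R i =>
        2 * q k i / (1 + pn (φ i a) (φ i b) fun k => q k i)) q₀ := fun k =>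
      ContinuousAt.div (continuous_const.mul ((_root_.continuous_apply i).comp
        (_root_.continuous_apply k))).continuousAt (continuous_const.add hpn).continuousAt h0
    have hc0 : ContinuousAt (fun q : Fin 3 → ∀ i, R i =>
        (1 - pn (φ i a) (φ i b) fun k => q k i) / (1 + pn (φ i a) (φ i b) fun k => q k i)) q₀ :=
      ContinuousAt.div (continuous_const.sub hpn).continuousAt
        (continuous_const.add hpn).continuousAt h0
    refine continuousAt_pi.mpr fun j => continuousAt_pi.mpr fun k => ?_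
    fin_cases j <;> fin_cases k
    · exact (hc0.add ((hc 1).mul continuousAt_const)).add ((hc 2).mul continuousAt_const)
    · exact continuousAt_const.mul (((hc 0).sub ((hc 1).mul continuousAt_const)).sub
        ((hc 2).mul continuousAt_const))
    · exact ((hc 0).add ((hc 1).mul continuousAt_const)).add ((hc 2).mul continuousAt_const)
    · exact (hc0.sub ((hc 1).mul continuousAt_const)).sub ((hc 2).mul continuousAt_const)
  have hq₀ : Φ q₀ = val g := by
    funext i
    change toM (φ i a) (x i) (y i) (e_cf (φ i a) (φ i b) (p i)) = (g i).1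
    rw [hp2 i, toM_ofM (h i) (ha i) (hb i)]
  have hd3 : DenseRange (Pi.map fun (_ : Fin 3) (t : F) (i : I) => φ i t) :=
    DenseRange.piMap fun _ => hd
  have h1 := mem_closure_image hΦ (hd3 q₀)
  rw [hq₀] at h1
  refine closure_mono ?_ h1
  rintro _ ⟨_, ⟨r, rfl⟩, rfl⟩
  refine ⟨toP φ h (cfU hab r), ⟨_, rfl⟩, ?_⟩
  funext i
  change toM (φ i a) (x i) (y i) (mapQ (φ i) (e_cf (a : F) b r)) = _
  rw [mapQ_cf]
  rfl

theorem dense_toP (hab : Aniso a b) (hd : DenseRange fun (t : F) (i : I) => φ i t)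
    (g : ∀ i, SL(2, R i)) : g ∈ closure (Set.range (toP φ h)) := by
  classical
  have h1 : (toP φ h).range.topologicalClosure = ⊤ := by
    refine pi_trans _ fun i j k hjk t => ?_
    refine mem_closure_toP φ h hab hd _ fun i' => ?_
    have h2 : ((Pi.mulSingle (M := fun i => SL(2, R i)) i (transvection hjk t)) i').1 0 0 +
        ((Pi.mulSingle (M := fun i => SL(2, R i)) i (transvection hjk t)) i').1 1 1 = 2 := by
      by_cases hi : i' = i
      · subst hi
        rw [Pi.mulSingle_eq_same]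
        fin_cases j <;> fin_cases k <;> first
          | exact absurd rfl hjk
          | (simp [transvection_coe]; norm_num)
      · rw [Pi.mulSingle_eq_of_ne hi]
        simp
        norm_num
    rw [h2]
    norm_num
  have h3 : g ∈ (toP φ h).range.topologicalClosure := by rw [h1]; exact Subgroup.mem_top _
  exact h3

theorem dense_normal (hab : Aniso a b) (hd : DenseRange fun (t : F) (i : I) => φ i t)
    (N : Subgroup (SL1 a b)) [N.Normal] (hN : ¬ N ≤ Subgroup.center (SL1 a b))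
    (g : ∀ i, SL(2, R i)) : g ∈ closure (toP φ h '' N) := by
  classical
  let H : Subgroup (∀ i, SL(2, R i)) := (N.map (toP φ h)).topologicalClosure
  have hH : H.Normal := by
    refine ⟨fun n hn g => ?_⟩
    have hcl : IsClosed {g : ∀ i, SL(2, R i) | g * n * g⁻¹ ∈ H} :=
      (Subgroup.isClosed_topologicalClosure _).preimage (by fun_prop)
    refine hcl.closure_subset_iff.mpr ?_ (dense_toP φ h hab hd g)
    rintro _ ⟨u, rfl⟩
    have hcl2 : IsClosed {n : ∀ i, SL(2, R i) | toP φ h u * n * (toP φ h u)⁻¹ ∈ H} :=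
      (Subgroup.isClosed_topologicalClosure _).preimage (by fun_prop)
    refine hcl2.closure_subset_iff.mpr ?_ hn
    rintro _ ⟨m, hm, rfl⟩
    refine Subgroup.le_topologicalClosure _ ⟨u * m * u⁻¹, ?_, by simp⟩
    exact Subgroup.Normal.conj_mem inferInstance m hm u
  have h1 : H = ⊤ := by
    refine pi_normal (fun i => sl2_perfect) H fun i => ?_
    have : (H.map (Pi.evalMonoidHom (fun i => SL(2, R i)) i)).Normal :=
      hH.map _ (Function.surjective_eval i)
    refine sl2_normal _ fun hle => hN fun n hn => ?_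
    refine toS_center (φ i) (h i) n (hle ⟨toP φ h n, ?_, rfl⟩)
    exact Subgroup.le_topologicalClosure _ ⟨n, hn, rfl⟩
  have h3 : g ∈ H := by rw [h1]; exact Subgroup.mem_top _
  exact h3

omit [Finite I] in
theorem bound_of_compact (K : Set (∀ i, SL(2, R i))) (hK : IsCompact K) (i : I) :
    ∃ B : ℝ, ∀ u : SL1 a b, toP φ h u ∈ K →
      ‖φ i ((u : (Qt a b)ˣ) : Qt a b).re‖ ≤ B ∧ ‖φ i ((u : (Qt a b)ˣ) : Qt a b).imI‖ ≤ B ∧
      ‖φ i ((u : (Qt a b)ˣ) : Qt a b).imJ‖ ≤ B ∧ ‖φ i ((u : (Qt a b)ˣ) : Qt a b).imK‖ ≤ B := by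
  have ha : φ i a ≠ 0 := (map_ne_zero (φ i)).mpr a.ne_zero
  have hb : φ i b ≠ 0 := (map_ne_zero (φ i)).mpr b.ne_zero
  let f : (∀ i, SL(2, R i)) → R i × R i × R i × R i := fun g =>
    ((ofM (φ i a) (x i) (y i) (φ i b) (g i).1).re, (ofM (φ i a) (x i) (y i) (φ i b) (g i).1).imI,
      (ofM (φ i a) (x i) (y i) (φ i b) (g i).1).imJ, (ofM (φ i a) (x i) (y i) (φ i b) (g i).1).imK)
  have he : ∀ j k, Continuous fun g : ∀ i, SL(2, R i) => (g i).1 j k := fun j k =>
    (continuous_apply_apply j k).comp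
      ((isClosedEmbedding_val (n := Fin 2) (R := R i)).continuous.comp (continuous_apply i))
  have hf : Continuous f := by
    have h00 := he 0 0
    have h01 := he 0 1
    have h10 := he 1 0
    have h11 := he 1 1
    simp only [f, ofM]
    fun_prop
  obtain ⟨B, hB⟩ := (hK.image hf).isBounded.exists_norm_le
  refine ⟨B, fun u hu => ?_⟩
  have h1 := hB _ ⟨_, hu, rfl⟩
  simp only [f, toP_apply, toS_val, ofM_toM (h i) ha hb, norm_prod_le_iff] at h1
  exact h1

omit [Finite I] [∀ i, CharZero (R i)] in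
theorem compact_of_bound [∀ i, ProperSpace (R i)] (B : I → ℝ) :
    ∃ K : Set (∀ i, SL(2, R i)), IsCompact K ∧ ∀ u : SL1 a b, (∀ i,
      ‖φ i ((u : (Qt a b)ˣ) : Qt a b).re‖ ≤ B i ∧ ‖φ i ((u : (Qt a b)ˣ) : Qt a b).imI‖ ≤ B i ∧
      ‖φ i ((u : (Qt a b)ˣ) : Qt a b).imJ‖ ≤ B i ∧ ‖φ i ((u : (Qt a b)ˣ) : Qt a b).imK‖ ≤ B i) →
      toP φ h u ∈ K := by
  let f : ∀ i, R i × R i × R i × R i → Matrix (Fin 2) (Fin 2) (R i) := fun i c =>
    toM (φ i a) (x i) (y i) (⟨c.1, c.2.1, c.2.2.1, c.2.2.2⟩ : ℍ[R i, φ i a, φ i b])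
  have hf : ∀ i, Continuous (f i) := by
    intro i
    refine continuous_pi fun j => continuous_pi fun k => ?_
    fin_cases j <;> fin_cases k <;> simp only [f, toM] <;> simp <;> fun_prop
  refine ⟨Set.univ.pi fun i => Subtype.val ⁻¹' (f i '' Metric.closedBall 0 (B i)),
    isCompact_univ_pi fun i => (isClosedEmbedding_val (n := Fin 2) (R := R i)).isCompact_preimage
      ((isCompact_closedBall _ _).image (hf i)), fun u hu i _ => ?_⟩
  refine ⟨(φ i ((u : (Qt a b)ˣ) : Qt a b).re, φ i ((u : (Qt a b)ˣ) : Qt a b).imI,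
    φ i ((u : (Qt a b)ˣ) : Qt a b).imJ, φ i ((u : (Qt a b)ˣ) : Qt a b).imK), ?_, rfl⟩
  rw [mem_closedBall_zero_iff]
  simp only [norm_prod_le_iff]
  exact hu i

end prod

end Vale.Agent.P011NQ
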