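import Vale.Agent.P011NQ.Ext
import Vale.Agent.P011NQ.Lat
import Vale.Agent.P011NQ.Loc
import Vale.Agent.P011NA.NSTOpen
import Vale.Agent.P011.Even.Completion

/-!
Noncentral normal subgroups of the norm-one group of a quaternion division algebra over a number
field have finite index.
-/

open NumberField IsDedekindDomain Topology
open scoped MatrixGroups

namespace Vale.Agent.P011NQ

open Vale.Agent.P011 Vale.Agent.P011.MPQ Vale.Agent.P011.Arith Vale.Agent.P011.MPQ.FG

variable {F : Type} [Field F] [NumberField F]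

theorem exists_compl (p : HeightOneSpectrum (𝓞 F) ⊕ InfinitePlace F) :
    ∃ (R : Type) (_ : NontriviallyNormedField R) (_ : ProperSpace R) (φ : F →+* R),
      (∀ x, ‖φ x‖ = pabv p x) ∧ DenseRange φ := by
  rcases p with v | w
  · exact ⟨v.adicCompletion F, Even.nnf v, Even.properSpace_compl v, FinitePlace.embedding v,
      fun x => FinitePlace.norm_embedding v x, HeightOneSpectrum.denseRange_algebraMap F v⟩
  · have hn : ∀ x : F, ‖algebraMap F w.Completion x‖ = w x := fun x =>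
      InfinitePlace.Completion.norm_coe w (WithAbs.toAbs w.1 x)
    let i : NontriviallyNormedField w.Completion :=
      { toNormedField := inferInstance
        non_trivial := ⟨algebraMap F w.Completion 2, by
          rw [hn]
          have := InfinitePlace.norm_embedding_eq w (2 : F)
          rw [← this, map_ofNat]
          norm_num⟩ }
    refine ⟨w.Completion, i, .of_nontriviallyNormedField_of_weaklyLocallyCompactSpace _,
      algebraMap F w.Completion, hn, ?_⟩
    have h := InfinitePlace.Completion.denseRange_coe w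
    refine h.mono ?_
    rintro _ ⟨x, rfl⟩
    exact ⟨x.ofAbs, rfl⟩

/-- The normal subgroup theorem for the integral points. -/
theorem relIndex_gam (a b : Fˣ) (hab : Aniso a b) (N : Subgroup (SL1 a b)) [N.Normal]
    (hN : ¬ N ≤ Subgroup.center (SL1 a b)) : ∃ M₀ : ℕ, M₀ ≠ 0 ∧ ∀ M : ℕ, M ≠ 0 → M₀ ∣ M →
      ∀ hA : Adm a b (SM F M), N.relIndex ((Gam a b (SM F M) hA).subgroupOf (SL1 a b)) ≠ 0 := by
  classical
  obtain ⟨M₀, hM₀, hcoc⟩ := exists_coc a b hab
  refine ⟨M₀, hM₀, fun M hM hd hA => ?_⟩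
  obtain ⟨B, hB⟩ := hcoc M hM hd hA
  choose R i1 i2 φ hφ1 hφ2 using exists_compl (F := F)
  have i3 : ∀ p, CharZero (R p) := fun p => by
    have := (φ p).charZero_iff (φ p).injective
    exact this.mp inferInstance
  let I : Type := {p : HeightOneSpectrum (𝓞 F) ⊕ InfinitePlace F //
    p ∈ TM F M ∧ ∃ x y : R p, φ p b = x ^ 2 - φ p a * y ^ 2}
  have hT := finite_TM (F := F) M hM
  have hI : Finite I := (hT.subset fun p hp => hp.1 : Set.Finite
    {p | p ∈ TM F M ∧ ∃ x y : R p, φ p b = x ^ 2 - φ p a * y ^ 2})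
  choose x y hxy using fun i : I => i.2.2
  have hdense : DenseRange fun (t : F) (i : I) => φ i.1 t := by
    have _hf := Fintype.ofFinite I
    rw [Metric.denseRange_iff]
    intro z r hr
    have hr2 : 0 < r / 2 := by linarith
    have h1 : ∀ p, ∃ s : F, ∀ hp : p ∈ TM F M ∧ ∃ x y : R p, φ p b = x ^ 2 - φ p a * y ^ 2,
        dist (z ⟨p, hp⟩) (φ p s) < r / 2 := by
      intro p
      by_cases hp : p ∈ TM F M ∧ ∃ x y : R p, φ p b = x ^ 2 - φ p a * y ^ 2
      · obtain ⟨s, hs⟩ := Metric.denseRange_iff.mp (hφ2 p) (z ⟨p, hp⟩) _ hr2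
        exact ⟨s, fun _ => hs⟩
      · exact ⟨0, fun h => absurd h hp⟩
    choose s hs using h1
    obtain ⟨t, ht⟩ := approxP (TM F M) hT s (fun _ => r / 2) fun _ => hr2
    refine ⟨t, (dist_pi_lt_iff hr).mpr fun i => ?_⟩
    have h2 := hs i.1 i.2
    have h3 := ht i.1 i.2.1
    rw [← hφ1, map_sub, ← dist_eq_norm, dist_comm] at h3
    have h4 := dist_triangle (z i) (φ i.1 (s i.1)) (φ i.1 t)
    have h5 : dist (z i) (φ i.1 (s i.1)) < r / 2 := h2
    linarith
  let P := toP (R := fun i : I => R i.1) (fun i => φ i.1) hxy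
  have hlc : ∀ i : I, LocallyCompactSpace SL(2, R i.1) := fun i =>
    have : LocallyCompactSpace (Matrix (Fin 2) (Fin 2) (R i.1)) :=
      inferInstanceAs (LocallyCompactSpace (Fin 2 → Fin 2 → R i.1))
    (Matrix.SpecialLinearGroup.isClosedEmbedding_val (n := Fin 2) (R := R i.1)).locallyCompactSpace
  have ht2 : ∀ i : I, T2Space SL(2, R i.1) := fun i =>
    (Matrix.SpecialLinearGroup.isClosedEmbedding_val (n := Fin 2) (R := R i.1)).isEmbedding.t2Space
  have hsz : ∀ (p) (q : Qt a b) (r : ℝ), szv (pabv p) q ≤ r ↔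
      ‖φ p q.re‖ ≤ r ∧ ‖φ p q.imI‖ ≤ r ∧ ‖φ p q.imJ‖ ≤ r ∧ ‖φ p q.imK‖ ≤ r := by
    intro p q r
    rw [szv_le_iff, hφ1, hφ1, hφ1, hφ1]
  have key := P011NA.nst_open P ((Gam a b (SM F M) hA).subgroupOf (SL1 a b)) N ⊤
    (fun n _ => comm_of_coc hM hA B hB n) ?_ ?_ ⟨Set.univ, Filter.univ_mem, fun _ _ _ => trivial⟩
    (fun g _ => dense_normal _ hxy hab hdense N hN g) (pi_gen (R := fun i : I => R i.1)) ?_
  · rwa [Subgroup.comap_top, inf_top_eq] at key
  · intro K hK
    have hb : ∀ p, ∃ B : ℝ, p ∈ TM F M → ∀ u : SL1 a b, P u ∈ K →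
        szv (pabv p) ((u : (Qt a b)ˣ) : Qt a b) ≤ B := by
      intro p
      by_cases hp : p ∈ TM F M
      · rcases dichotomy (R := R p) (a := φ p a) (b := φ p b) ((map_ne_zero _).mpr a.ne_zero)
          with h | ⟨B, h⟩
        · obtain ⟨B, h'⟩ := bound_of_compact (R := fun i : I => R i.1) (fun i => φ i.1) hxy K hK
            ⟨p, hp, h⟩
          exact ⟨B, fun _ u hu => (hsz _ _ _).mpr (h' u hu)⟩
        · refine ⟨B, fun _ u _ => (hsz _ _ _).mpr ?_⟩
          have h1 : nrd ((u : (Qt a b)ˣ) : Qt a b) = 1 := u.2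
          have h2 := congrArg (φ p) h1
          simp only [nrd, map_add, map_sub, map_mul, map_pow, map_one] at h2
          have h3 := h ![φ p ((u : (Qt a b)ˣ) : Qt a b).re, φ p ((u : (Qt a b)ˣ) : Qt a b).imI,
            φ p ((u : (Qt a b)ˣ) : Qt a b).imJ, φ p ((u : (Qt a b)ˣ) : Qt a b).imK] h2
          exact ⟨(norm_le_pi_norm _ 0).trans h3, (norm_le_pi_norm _ 1).trans h3,
            (norm_le_pi_norm _ 2).trans h3, (norm_le_pi_norm _ 3).trans h3⟩
      · exact ⟨0, fun h => absurd h hp⟩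
    choose B' hB' using hb
    have hinj : Function.Injective fun u : SL1 a b => ((u : (Qt a b)ˣ) : Qt a b) :=
      fun u u' e => Subtype.ext (Units.ext e)
    refine ((finite_bounded' a b M hM B').preimage hinj.injOn).subset ?_
    rintro u ⟨hu1, hu2⟩
    exact ⟨((mem_Gam (hA := hA)).mp hu1).2, fun p hp => hB' p hp u hu2⟩
  · obtain ⟨K, hK, hK'⟩ := compact_of_bound (R := fun i : I => R i.1) (fun i => φ i.1) hxy
      fun i => B i.1
    refine ⟨K, hK, fun l => ?_⟩
    obtain ⟨θ, hθ, hb⟩ := hB _ l.2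
    refine ⟨⟨θ, hθ.1⟩, hθ, ?_⟩
    rw [← map_inv, ← map_mul]
    exact hK' _ fun i => (hsz _ _ _).mp (hb i.1 i.2.1)
  · intro χ _ hχ _ g _
    exact pi_add_zero (fun i => sl2_perfect) χ (fun x y => hχ x trivial y trivial) g

/-- A noncentral normal subgroup of the norm-one group has finite index. -/
theorem index_ne_zero (a b : Fˣ) (hab : Aniso a b) (N : Subgroup (SL1 a b)) [N.Normal]
    (hN : ¬ N ≤ Subgroup.center (SL1 a b)) : N.index ≠ 0 := by
  obtain ⟨M₀, hM₀, h₀⟩ := relIndex_gam a b hab N hN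
  obtain ⟨M₁, hM₁, h₁⟩ := exists_big2 a b hab
  have hM : M₀ * M₁ ≠ 0 := mul_ne_zero hM₀ hM₁
  have hbig : ∀ S, SM F (M₀ * M₁) ⊆ S → Big2 a b S := fun S hS =>
    h₁ S ((SM_mono (dvd_mul_left M₁ M₀)).trans hS)
  set e := N.relIndex ((Gam a b (SM F (M₀ * M₁)) (hbig _ le_rfl).adm).subgroupOf (SL1 a b)) with he
  have he0 : e ≠ 0 := h₀ _ hM (dvd_mul_right _ _) _
  have hSS : SM F (M₀ * M₁) ⊆ SM F (M₀ * M₁ * e) := SM_mono (dvd_mul_right _ _)
  have h2 := h₀ (M₀ * M₁ * e) (mul_ne_zero hM he0) ((dvd_mul_right _ _).trans (dvd_mul_right _ _))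
    (hbig _ hSS).adm
  set D := (Gam a b (SM F (M₀ * M₁ * e)) (hbig _ hSS).adm).subgroupOf (SL1 a b) with hD
  have h3 : SL1 a b ≤ (N ⊔ D).map (SL1 a b).subtype := by
    refine sl1_le (N := N.map (SL1 a b).subtype) (e := e) (Subgroup.map_mono le_sup_left) ?_ hbig
      ?_ hSS ?_ ?_
    · rintro g hg _ ⟨n, hn, rfl⟩
      have h5 : (⟨g, hg⟩ : SL1 a b) * n * (⟨g, hg⟩ : SL1 a b)⁻¹ ∈ N :=
        Subgroup.Normal.conj_mem inferInstance n hn _
      exact Subgroup.mem_map_of_mem (SL1 a b).subtype h5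
    · intro g hg
      have h5 : (⟨g, hg.1⟩ : SL1 a b) ^ e ∈ N := Subgroup.pow_relIndex_mem N (g := ⟨g, hg.1⟩) hg
      have h6 := Subgroup.mem_map_of_mem (SL1 a b).subtype h5
      rwa [map_pow] at h6
    · intro v hv
      exact val_dvd (dvd_mul_left e _) (notMem_SM.mp hv)
    · intro g hg
      exact ⟨⟨g, hg.1⟩, Subgroup.mem_sup_right hg, rfl⟩
  have h4 : N ⊔ D = ⊤ := by
    rw [eq_top_iff]
    intro g _
    obtain ⟨g', hg', e'⟩ := h3 g.2
    rwa [← Subtype.ext (p := fun x => x ∈ SL1 a b) (a1 := g') (a2 := g) e']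
  rw [← Subgroup.relIndex_top_right, ← h4, Subgroup.relIndex_sup_left]
  exact h2

end Vale.Agent.P011NQ
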