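import Vale.Agent.P011NQ.Tr

/-!
A normal subgroup of the norm-one group which contains the `e`-th powers of the integral elements
generates the norm-one group together with the integral elements.
-/

open NumberField IsDedekindDomain

namespace Vale.Agent.P011NQ

open Vale.Agent.P011 Vale.Agent.P011.MPQ Vale.Agent.P011.Arith Vale.Agent.P011.MPQ.I34

variable {F : Type} [Field F] [NumberField F] {a b : Fˣ}
  {S : Set (HeightOneSpectrum (𝓞 F))} {v : HeightOneSpectrum (𝓞 F)}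

omit [NumberField F] in
theorem trd_conj (g x : (Qt a b)ˣ) :
    trd ((g * x * g⁻¹ : (Qt a b)ˣ) : Qt a b) = trd (x : Qt a b) := by
  rw [Units.val_mul, trd_mul_comm, Units.val_mul, ← mul_assoc, Units.inv_mul, one_mul]

/-- Conjugation by a prime element. -/
theorem conj_int (hA : Adm a b S) (π : (Qt a b)ˣ) (hπ : IntQ S (π : Qt a b))
    (hπ1 : v.valuation F (nrd (π : Qt a b)) = WithZero.exp (-1 : ℤ))
    (hπ2 : ∀ w ∉ S, w ≠ v → w.valuation F (nrd (π : Qt a b)) = 1) (g : (Qt a b)ˣ)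
    (hg : g ∈ Gam a b S hA) (hd : Dv v (cj (π : Qt a b) * (g : Qt a b) * (π : Qt a b))) :
    π⁻¹ * g * π ∈ Gam a b S hA := by
  rw [mem_Gam]
  constructor
  · rw [show π⁻¹ * g * π = π⁻¹ * g * π⁻¹⁻¹ by rw [inv_inv], nrd_conj]
    exact (mem_Gam.mp hg).1
  · have e1 : ((π⁻¹ * g * π : (Qt a b)ˣ) : Qt a b) = (nrd (π : Qt a b))⁻¹ •
        (cj (π : Qt a b) * (g : Qt a b) * (π : Qt a b)) := by
      rw [Units.val_mul, Units.val_mul, inv_val π, smul_mul_assoc, smul_mul_assoc]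
    have hprod : IntQ S (cj (π : Qt a b) * (g : Qt a b) * (π : Qt a b)) :=
      ((hπ.cj.mul hA (mem_Gam.mp hg).2).mul hA hπ)
    have key : ∀ w ∉ S, IntA w ((π⁻¹ * g * π : (Qt a b)ˣ) : Qt a b) := by
      intro w hw
      rw [e1]
      by_cases hwv : w = v
      · subst hwv
        exact (dv_iff hπ1).mp hd
      · refine IntA.smul' ?_ (IntQ.at hprod hw)
        rw [map_inv₀, hπ2 w hw hwv, inv_one]
    exact ⟨fun w hw => (key w hw).1, fun w hw => (key w hw).2.1, fun w hw => (key w hw).2.2.1,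
      fun w hw => (key w hw).2.2.2⟩

/-- A unipotent element whose conjugate has its power in the normal subgroup. -/
theorem exists_unip_conj {S₀ : Set (HeightOneSpectrum (𝓞 F))} {e : ℕ} {N : Subgroup (Qt a b)ˣ}
    (hN : ∀ g ∈ SL1 a b, ∀ x ∈ N, g * x * g⁻¹ ∈ N)
    (hS₀ : Big2 a b S₀) (hpow₀ : ∀ g ∈ Gam a b S₀ hS₀.adm, g ^ e ∈ N) (hSS : S₀ ⊆ S)
    (hS : Big2 a b S) (hv : v ∉ S) (π : (Qt a b)ˣ)
    (hπ : IntQ S (π : Qt a b)) (hπ1 : v.valuation F (nrd (π : Qt a b)) = WithZero.exp (-1 : ℤ))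
    (hπ2 : ∀ w ∉ S, w ≠ v → w.valuation F (nrd (π : Qt a b)) = 1) :
    ∃ u ∈ Gam a b S hS.adm, v.valuation F (trd ((u : (Qt a b)ˣ) : Qt a b) - 2) = WithZero.exp (-1) ∧
      π * u ^ e * π⁻¹ ∈ N := by
  have hA := hS.adm
  have hv₀ : v ∉ S₀ := fun h => hv (hSS h)
  obtain ⟨u₀, hu₀, hut⟩ := hS₀.exists_unip hv₀
  have hu₀S : u₀ ∈ Gam a b S hA := ⟨hu₀.1, hu₀.2.mono hSS⟩
  have hlt1 : (WithZero.exp (-1 : ℤ) : Z0) < 1 := by
    rw [← WithZero.exp_zero, WithZero.exp_lt_exp]; norm_num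
  have hx : IntQ S ((u₀ : Qt a b) - 1) := hu₀S.2.sub IntQ.one
  have hnx : v.valuation F (nrd ((u₀ : Qt a b) - 1)) < 1 := by
    rw [nrd_sub_one, hu₀.1]
    have h5 : (1 : F) - trd (u₀ : Qt a b) + 1 = -(trd (u₀ : Qt a b) - 2) := by ring
    rw [h5, Valuation.map_neg, hut]
    exact hlt1
  have hdx : ¬ Dv v ((u₀ : Qt a b) - 1) :=
    not_dv_unip (hA.a v hv).le (hA.b v hv).le hu₀.1 hut
  have hndv : ¬ Dv v (π : Qt a b) := by
    intro h
    have h1 := val_nrd_of_Dv (hA.a v hv).le (hA.b v hv).le h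
    rw [hπ1, WithZero.exp_le_exp] at h1
    omega
  obtain ⟨γ, hγ, hd⟩ := hS.tr_top hv _ (π : Qt a b) hx hπ hnx (by rw [hπ1]; exact hlt1) hdx hndv
  have hu' : γ * u₀ * γ⁻¹ ∈ Gam a b S hA := mul_mem (mul_mem hγ hu₀S) (inv_mem hγ)
  have hd' : Dv v (cj (π : Qt a b) * ((γ * u₀ * γ⁻¹ : (Qt a b)ˣ) : Qt a b) * (π : Qt a b)) := by
    have e1 : cj (π : Qt a b) * ((γ * u₀ * γ⁻¹ : (Qt a b)ˣ) : Qt a b) * (π : Qt a b) =
        cj (π : Qt a b) * (π : Qt a b) + (cj (π : Qt a b) * (γ : Qt a b) * ((u₀ : Qt a b) - 1)) *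
          (((γ⁻¹ : (Qt a b)ˣ) : Qt a b) * (π : Qt a b)) := by
      have e2 : (γ : Qt a b) * ((γ⁻¹ : (Qt a b)ˣ) : Qt a b) = 1 := Units.mul_inv γ
      rw [Units.val_mul, Units.val_mul, mul_sub, sub_mul, mul_one,
        mul_assoc (cj (π : Qt a b)) (γ : Qt a b) (((γ⁻¹ : (Qt a b)ˣ) : Qt a b) * (π : Qt a b)),
        ← mul_assoc (γ : Qt a b) ((γ⁻¹ : (Qt a b)ˣ) : Qt a b) (π : Qt a b), e2, one_mul]
      simp only [mul_assoc]
      abel
    rw [e1]
    refine Dv.add' ?_ (dv_of_mul_left hA hv hd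
      (IntQ.at ((mem_Gam.mp (inv_mem hγ)).2.mul hA hπ) hv))
    rw [cj_mul_self, QuaternionAlgebra.algebraMap_eq]
    refine ⟨?_, ?_, ?_, ?_⟩
    · change v.valuation F (nrd (π : Qt a b)) < 1
      rw [hπ1]; exact hlt1
    · change v.valuation F 0 < 1
      rw [map_zero]; exact zero_lt_one
    · change v.valuation F 0 < 1
      rw [map_zero]; exact zero_lt_one
    · change v.valuation F 0 < 1
      rw [map_zero]; exact zero_lt_one
  refine ⟨π⁻¹ * (γ * u₀ * γ⁻¹) * π, conj_int hA π hπ hπ1 hπ2 _ hu' hd', ?_, ?_⟩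
  · rw [show π⁻¹ * (γ * u₀ * γ⁻¹) * π = (π⁻¹ * γ) * u₀ * (π⁻¹ * γ)⁻¹ by group, trd_conj]
    exact hut
  · have e3 : π * (π⁻¹ * (γ * u₀ * γ⁻¹) * π) ^ e * π⁻¹ = γ * u₀ ^ e * γ⁻¹ := by
      rw [show π⁻¹ * (γ * u₀ * γ⁻¹) * π = (π⁻¹ * γ) * u₀ * (π⁻¹ * γ)⁻¹ by group, conj_pow]
      group
    rw [e3]
    exact hN γ (mem_Gam.mp hγ).1 _ (hpow₀ u₀ hu₀)

/-- Conjugates by a prime element. -/
theorem conj_mem {S₀ : Set (HeightOneSpectrum (𝓞 F))} {e : ℕ} {N E : Subgroup (Qt a b)ˣ}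
    (hNE : N ≤ E) (hN : ∀ g ∈ SL1 a b, ∀ x ∈ N, g * x * g⁻¹ ∈ N)
    (hS₀ : Big2 a b S₀) (hpow₀ : ∀ g ∈ Gam a b S₀ hS₀.adm, g ^ e ∈ N) (hSS : S₀ ⊆ S)
    (hS : Big2 a b S) (hE : Gam a b S hS.adm ≤ E) (hv : v ∉ S) (he : v.valuation F (e : F) = 1)
    (π : (Qt a b)ˣ)
    (hπ : IntQ S (π : Qt a b)) (hπ1 : v.valuation F (nrd (π : Qt a b)) = WithZero.exp (-1 : ℤ))
    (hπ2 : ∀ w ∉ S, w ≠ v → w.valuation F (nrd (π : Qt a b)) = 1) (γ : (Qt a b)ˣ)
    (hγ : γ ∈ Gam a b S hS.adm) : π * γ * π⁻¹ ∈ E := by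
  have hA := hS.adm
  let H : Subgroup (Qt a b)ˣ := N.comap (MulAut.conj π).toMonoidHom
  have hH : ∀ x, x ∈ H ↔ π * x * π⁻¹ ∈ N := fun x => Iff.rfl
  have hcSL : ∀ x ∈ Gam a b S hA, π * x * π⁻¹ ∈ SL1 a b := by
    intro x hx
    change nrd ((π * x * π⁻¹ : (Qt a b)ˣ) : Qt a b) = 1
    rw [nrd_conj]
    exact (mem_Gam.mp hx).1
  have hn : ∀ g ∈ Gam a b S hA, ∀ h ∈ H, g * h * g⁻¹ ∈ H := by
    intro g hg h hh
    rw [hH] at hh ⊢
    have e1 : π * (g * h * g⁻¹) * π⁻¹ = (π * g * π⁻¹) * (π * h * π⁻¹) * (π * g * π⁻¹)⁻¹ := by group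
    rw [e1]
    exact hN _ (hcSL g hg) _ hh
  obtain ⟨u, hu, hut, hupow⟩ := exists_unip_conj hN hS₀ hpow₀ hSS hS hv π hπ hπ1 hπ2
  have hndv : ¬ Dv v (cj (π : Qt a b)) := by
    intro h
    have h1 := val_nrd_of_Dv (hA.a v hv).le (hA.b v hv).le h
    rw [nrd_cj, hπ1, WithZero.exp_le_exp] at h1
    omega
  have hlt : v.valuation F (nrd (cj (π : Qt a b))) < 1 := by
    rw [nrd_cj, hπ1, ← WithZero.exp_zero, WithZero.exp_lt_exp]; norm_num
  have hγi := (mem_Gam.mp hγ).2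
  have hγ1 := (mem_Gam.mp hγ).1
  have hndv' : ¬ Dv v ((γ : Qt a b) * cj (π : Qt a b)) := by
    intro h
    apply hndv
    have e1 : cj (π : Qt a b) = ((γ⁻¹ : (Qt a b)ˣ) : Qt a b) * ((γ : Qt a b) * cj (π : Qt a b)) := by
      rw [← mul_assoc, Units.inv_mul, one_mul]
    rw [e1]
    exact dv_of_mul_right hA hv (IntQ.at (mem_Gam.mp (inv_mem hγ)).2 hv) h
  have hlt' : v.valuation F (nrd ((γ : Qt a b) * cj (π : Qt a b))) < 1 := by
    rw [nrd_mul, hγ1, one_mul]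
    exact hlt
  obtain ⟨h, hh, hhG, hd⟩ := hS.tr hv he H hn u hu hut hupow (cj (π : Qt a b))
    ((γ : Qt a b) * cj (π : Qt a b)) hπ.cj (hγi.mul hA hπ.cj) hlt hlt' hndv hndv'
  rw [cj_mul, cj_cj, ← inv_eq_cj hγ1] at hd
  rw [hH] at hh
  have hg1 : π * γ⁻¹ * h * π⁻¹ ∈ Gam a b S hA := by
    rw [mem_Gam]
    constructor
    · rw [show π * γ⁻¹ * h * π⁻¹ = π * (γ⁻¹ * h) * π⁻¹ by group, nrd_conj]
      exact (mem_Gam.mp (mul_mem (inv_mem hγ) hhG)).1
    · have e1 : ((π * γ⁻¹ * h * π⁻¹ : (Qt a b)ˣ) : Qt a b) = (nrd (π : Qt a b))⁻¹ •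
          ((π : Qt a b) * ((γ⁻¹ : (Qt a b)ˣ) : Qt a b) * (h : Qt a b) * cj (π : Qt a b)) := by
        rw [Units.val_mul, Units.val_mul, Units.val_mul, inv_val π, mul_smul_comm]
      have hprod : IntQ S ((π : Qt a b) * ((γ⁻¹ : (Qt a b)ˣ) : Qt a b) * (h : Qt a b) *
          cj (π : Qt a b)) :=
        (((hπ.mul hA (mem_Gam.mp (inv_mem hγ)).2).mul hA (mem_Gam.mp hhG).2).mul hA hπ.cj)
      have key : ∀ w ∉ S, IntA w ((π * γ⁻¹ * h * π⁻¹ : (Qt a b)ˣ) : Qt a b) := by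
        intro w hw
        rw [e1]
        by_cases hwv : w = v
        · subst hwv
          exact (dv_iff hπ1).mp hd
        · refine IntA.smul' ?_ (IntQ.at hprod hw)
          rw [map_inv₀, hπ2 w hw hwv, inv_one]
      exact ⟨fun w hw => (key w hw).1, fun w hw => (key w hw).2.1, fun w hw => (key w hw).2.2.1,
        fun w hw => (key w hw).2.2.2⟩
  have h3 : (π * γ⁻¹ * h * π⁻¹) * (π * h * π⁻¹)⁻¹ ∈ E :=
    mul_mem (hE hg1) (inv_mem (hNE hh))
  have e3 : (π * γ⁻¹ * h * π⁻¹) * (π * h * π⁻¹)⁻¹ = (π * γ * π⁻¹)⁻¹ := by group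
  rw [e3] at h3
  exact inv_mem_iff.mp h3

/-- The main induction. -/
theorem extend_aux {S₀ : Set (HeightOneSpectrum (𝓞 F))} {e : ℕ} {N E : Subgroup (Qt a b)ˣ}
    (hNE : N ≤ E) (hN : ∀ g ∈ SL1 a b, ∀ x ∈ N, g * x * g⁻¹ ∈ N)
    (hS₀ : Big2 a b S₀) (hpow₀ : ∀ g ∈ Gam a b S₀ hS₀.adm, g ^ e ∈ N) (hSS : S₀ ⊆ S)
    (hS : Big2 a b S) (hE : Gam a b S hS.adm ≤ E) (hv : v ∉ S) (he : v.valuation F (e : F) = 1) :
    ∀ (n : ℕ) (y : (Qt a b)ˣ), y ∈ SL1 a b → IntQ (insert v S) (y : Qt a b) →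
      (∀ t : F, v.valuation F t = WithZero.exp (-1 : ℤ) → IntA v (t ^ n • (y : Qt a b))) →
      y ∈ E := by
  have hA := hS.adm
  intro n
  induction n with
  | zero =>
    intro y hy hy1 hy2
    obtain ⟨t, ht⟩ := v.valuation_exists_uniformizer F
    have h1 := hy2 t ht
    rw [pow_zero, one_smul] at h1
    refine hE (mem_Gam.mpr ⟨hy, ?_⟩)
    have key : ∀ w ∉ S, IntA w (y : Qt a b) := by
      intro w hw
      by_cases hwv : w = v
      · rw [hwv]; exact h1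
      · exact IntQ.at hy1 (fun h => (Set.mem_insert_iff.mp h).elim hwv hw)
    exact ⟨fun w hw => (key w hw).1, fun w hw => (key w hw).2.1, fun w hw => (key w hw).2.2.1,
      fun w hw => (key w hw).2.2.2⟩
  | succ n ih =>
    intro y hy hy1 hy2
    obtain ⟨t, ht⟩ := exists_int_unif v
    have ht0 : (t : F) ≠ 0 := by
      intro h
      rw [h, map_zero] at ht
      exact WithZero.exp_ne_zero ht.symm
    set Y : Qt a b := (t : F) ^ (n + 1) • (y : Qt a b) with hY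
    have hYv : IntA v Y := hy2 t ht
    -- change of the uniformizer
    have hchange : ∀ (m : ℕ) (z : Qt a b), IntA v ((t : F) ^ m • z) →
        ∀ s : F, v.valuation F s = WithZero.exp (-1 : ℤ) → IntA v (s ^ m • z) := by
      intro m z hz s hs
      have e1 : s ^ m • z = (s ^ m * ((t : F) ^ m)⁻¹) • ((t : F) ^ m • z) := by
        rw [smul_smul, mul_assoc, inv_mul_cancel₀ (pow_ne_zero m ht0), mul_one]
      rw [e1]
      refine IntA.smul' ?_ hz
      rw [map_mul, map_inv₀, map_pow, map_pow, hs, ht, mul_inv_cancel₀]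
      exact pow_ne_zero m WithZero.exp_ne_zero
    by_cases hd : Dv v Y
    · refine ih y hy hy1 (hchange n _ ?_)
      rw [dv_iff ht, hY, smul_smul] at hd
      have e1 : (t : F)⁻¹ * (t : F) ^ (n + 1) = (t : F) ^ n := by
        rw [pow_succ]
        field_simp
      rwa [e1] at hd
    · have hYint : IntQ S Y := by
        have key : ∀ w ∉ S, IntA w Y := by
          intro w hw
          by_cases hwv : w = v
          · rw [hwv]; exact hYv
          · refine IntA.smul' ?_ (IntQ.at hy1 (fun h => (Set.mem_insert_iff.mp h).elim hwv hw))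
            rw [map_pow]
            exact pow_le_one' (w.valuation_le_one t) _
        exact ⟨fun w hw => (key w hw).1, fun w hw => (key w hw).2.1, fun w hw => (key w hw).2.2.1,
          fun w hw => (key w hw).2.2.2⟩
      have hnY : v.valuation F (nrd Y) = WithZero.exp (-(2 * (n + 1 : ℕ) : ℤ)) := by
        have hy' : nrd (y : Qt a b) = 1 := hy
        rw [hY, nrd_smul', hy', mul_one, map_pow, map_pow, ht, ← pow_mul, ← WithZero.exp_nsmul]
        congr 1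
        simp
        ring
      obtain ⟨π, hπ, hπ1, hπ2, hπ3⟩ := exists_pi hA hS.pid hv Y hYint (by
        rw [hnY, ← WithZero.exp_zero, WithZero.exp_lt_exp]; omega) hd
      set Z : Qt a b := ((π⁻¹ : (Qt a b)ˣ) : Qt a b) * Y with hZ
      have hYZ : Y = (π : Qt a b) * Z := by rw [hZ, ← mul_assoc, Units.mul_inv, one_mul]
      have hdZ : ¬ Dv v Z := by
        intro h
        apply hd
        rw [hYZ]
        exact dv_of_mul_right hA hv (IntQ.at hπ hv) h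
      have hnZ : v.valuation F (nrd Z) < 1 := by
        rw [hZ, nrd_mul, nrd_inv, map_mul, map_inv₀, hπ1, hnY, ← WithZero.exp_neg,
          ← WithZero.exp_add, ← WithZero.exp_zero, WithZero.exp_lt_exp]
        push_cast
        omega
      have hndv : ¬ Dv v (cj (π : Qt a b)) := by
        intro h
        have h1 := val_nrd_of_Dv (hA.a v hv).le (hA.b v hv).le h
        rw [nrd_cj, hπ1, WithZero.exp_le_exp] at h1
        omega
      have hlt : v.valuation F (nrd (cj (π : Qt a b))) < 1 := by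
        rw [nrd_cj, hπ1, ← WithZero.exp_zero, WithZero.exp_lt_exp]; norm_num
      obtain ⟨γ, hγ, hdγ⟩ := hS.tr_top hv
        Z (cj (π : Qt a b)) hπ3 hπ.cj hnZ hlt hdZ hndv
      rw [cj_cj] at hdγ
      have hg := conj_mem hNE hN hS₀ hpow₀ hSS hS hE hv he π hπ hπ1 hπ2 γ hγ
      set g : (Qt a b)ˣ := π * γ * π⁻¹ with hgdef
      have hgSL : g ∈ SL1 a b := by
        change nrd ((π * γ * π⁻¹ : (Qt a b)ˣ) : Qt a b) = 1
        rw [nrd_conj]
        exact (mem_Gam.mp hγ).1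
      have hgy : g * y ∈ E := by
        refine ih (g * y) (mul_mem hgSL hy) ?_ (hchange n _ ?_)
        · have key : ∀ w ∉ (insert v S : Set (HeightOneSpectrum (𝓞 F))),
              IntA w ((g * y : (Qt a b)ˣ) : Qt a b) := by
            intro w hw
            have hwv : w ≠ v := fun h => hw (Set.mem_insert_iff.mpr (Or.inl h))
            have hwS : w ∉ S := fun h => hw (Set.mem_insert_of_mem _ h)
            have hπi : IntA w ((π⁻¹ : (Qt a b)ˣ) : Qt a b) := by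
              rw [inv_val]
              refine IntA.smul' ?_ (IntA.cj' (IntQ.at hπ hwS))
              rw [map_inv₀, hπ2 w hwS hwv, inv_one]
            rw [hgdef, Units.val_mul, Units.val_mul, Units.val_mul]
            exact IntA.mul' hA hwS (IntA.mul' hA hwS (IntA.mul' hA hwS (IntQ.at hπ hwS)
              (IntQ.at (mem_Gam.mp hγ).2 hwS)) hπi) (IntQ.at hy1 hw)
          exact ⟨fun w hw => (key w hw).1, fun w hw => (key w hw).2.1, fun w hw => (key w hw).2.2.1,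
            fun w hw => (key w hw).2.2.2⟩
        · have e1 : (t : F) ^ n • ((g * y : (Qt a b)ˣ) : Qt a b) =
              (t : F)⁻¹ • ((π : Qt a b) * (γ : Qt a b) * Z) := by
            rw [hZ, hY, hgdef, Units.val_mul, Units.val_mul, Units.val_mul, mul_smul_comm,
              mul_smul_comm, smul_smul]
            have e2 : (t : F)⁻¹ * (t : F) ^ (n + 1) = (t : F) ^ n := by
              rw [pow_succ]
              field_simp
            rw [e2]
            simp only [mul_assoc]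
          rw [e1]
          exact (dv_iff ht).mp hdγ
      have e4 : y = g⁻¹ * (g * y) := by group
      rw [e4]
      exact mul_mem (inv_mem hg) hgy

/-- The norm-one group is generated by the normal subgroup and the integral elements. -/
theorem sl1_le {S₀ S₁ : Set (HeightOneSpectrum (𝓞 F))} {e : ℕ} {N E : Subgroup (Qt a b)ˣ}
    (hNE : N ≤ E) (hN : ∀ g ∈ SL1 a b, ∀ x ∈ N, g * x * g⁻¹ ∈ N)
    (hbig : ∀ S, S₀ ⊆ S → Big2 a b S)
    (hpow₀ : ∀ g ∈ Gam a b S₀ (hbig S₀ le_rfl).adm, g ^ e ∈ N) (hSS : S₀ ⊆ S₁)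
    (he : ∀ v ∉ S₁, v.valuation F (e : F) = 1) (hE : Gam a b S₁ (hbig S₁ hSS).adm ≤ E) :
    SL1 a b ≤ E := by
  have key : ∀ T : Set (HeightOneSpectrum (𝓞 F)), T.Finite → ∀ x ∈ SL1 a b,
      IntQ (S₁ ∪ T) (x : Qt a b) → x ∈ E := by
    intro T hT
    induction T, hT using Set.Finite.induction_on with
    | empty =>
      intro x hx1 hx
      exact hE (mem_Gam.mpr ⟨hx1, by rwa [Set.union_empty] at hx⟩)
    | @insert v T hvT hT ih =>
      intro x hx1 hx
      by_cases hv : v ∈ S₁ ∪ T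
      · refine ih x hx1 ?_
        rwa [Set.union_insert, Set.insert_eq_of_mem hv] at hx
      · obtain ⟨n, hn⟩ := exists_den_at v (x : Qt a b)
        refine extend_aux hNE hN (hbig S₀ le_rfl) hpow₀ (hSS.trans Set.subset_union_left)
          (hbig _ (hSS.trans Set.subset_union_left)) (fun g hg => ih g hg.1 hg.2) hv
          (he v fun h => hv (Or.inl h)) n x hx1 ?_ hn
        rwa [Set.union_insert] at hx
  intro x hx1
  obtain ⟨T, hT, hx⟩ := exists_finite (x : Qt a b)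
  exact key T hT x hx1 (hx.mono Set.subset_union_right)

end Vale.Agent.P011NQ
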