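import Vale.Agent.P011.MPQ.I34

/-!
Transitivity on the neighbours, from one power.
-/

open NumberField IsDedekindDomain
open scoped Matrix

namespace Vale.Agent.P011NQ

open Vale.Agent.P011 Vale.Agent.P011.MPQ Vale.Agent.P011.Arith

variable {F : Type} [Field F] [NumberField F] {a b : Fˣ}

/-- The set of primes is large: right ideals are principal, and traces can be prescribed. -/
structure Big2 (a b : Fˣ) (S : Set (HeightOneSpectrum (𝓞 F))) : Prop where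
  adm : Adm a b S
  pid : ∀ I : AddSubgroup (Qt a b), I ≠ ⊥ → (∀ x ∈ I, IntQ S x) →
    (∀ x ∈ I, ∀ y, IntQ S y → x * y ∈ I) →
    ∃ q : (Qt a b)ˣ, ∀ x, x ∈ I ↔ IntQ S (((q⁻¹ : (Qt a b)ˣ) : Qt a b) * x)
  ex : ∀ v ∉ S, ∀ z : F, v.valuation F z ≤ 1 → WithZero.exp (-2) < v.valuation F (z ^ 2 - 4) →
    ∃ g ∈ Gam a b S adm, v.valuation F (trd (g : Qt a b) - z) ≤ WithZero.exp (-2)

theorem exists_big2 (a b : Fˣ) (hab : Aniso a b) :
    ∃ M : ℕ, M ≠ 0 ∧ ∀ S : Set (HeightOneSpectrum (𝓞 F)), SM F M ⊆ S → Big2 a b S := by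
  obtain ⟨M₀, hM₀, h⟩ := exists_near a b hab
  obtain ⟨M, hM, hd, _, hpid⟩ := exists_pid a b hab M₀ hM₀
  refine ⟨M, hM, fun S hSM => ?_⟩
  have hA' := (hpid S hSM).1
  refine ⟨hA', (hpid S hSM).2, ?_⟩
  intro v hv z hz hz4
  obtain ⟨t, ht1, ht2, ht3⟩ := h S ((SM_mono hd).trans hSM) v hv z hz
  obtain ⟨y, hy1, hy2⟩ := ht3 (by
    intro h0
    have e1 : z ^ 2 - 4 = -((t - z) * (t - z + 2 * z)) + (t ^ 2 - 4) := by ring
    rw [e1, h0, add_zero, Valuation.map_neg, map_mul] at hz4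
    have h5 : v.valuation F (t - z + 2 * z) ≤ 1 := by
      refine (v.valuation F).map_add_le (ht1.trans ?_) ?_
      · rw [← WithZero.exp_zero, WithZero.exp_le_exp]; norm_num
      · rw [map_mul]
        exact mul_le_one' (by exact_mod_cast i0_val_nat_le v 2) hz
    refine absurd hz4 (not_lt.mpr ?_)
    calc _ ≤ v.valuation F (t - z) * 1 := mul_le_mul_right h5 _
      _ ≤ _ := by rwa [mul_one])
  obtain ⟨g, hg, hgt⟩ := exists_conj hA' (hpid S hSM).2 y hy1 (by rw [hy2]; exact ht2)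
  exact ⟨g, hg, by rw [hgt, hy2]; exact ht1⟩

/-- An element which is unipotent and nontrivial modulo `v`. -/
theorem Big2.exists_unip {S : Set (HeightOneSpectrum (𝓞 F))} (hS : Big2 a b S)
    {v : HeightOneSpectrum (𝓞 F)} (hv : v ∉ S) : ∃ u ∈ Gam a b S hS.adm,
      v.valuation F (trd ((u : (Qt a b)ˣ) : Qt a b) - 2) = WithZero.exp (-1) := by
  have h21 := hS.adm.two v hv
  obtain ⟨π, hπ⟩ := v.valuation_exists_uniformizer F
  have hπ' : v.valuation F π = WithZero.exp (-1) := hπ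
  have hπ1 : v.valuation F π < 1 := by
    rw [hπ', ← WithZero.exp_zero, WithZero.exp_lt_exp]; norm_num
  have h41 : v.valuation F (4 : F) = 1 := by
    have : (4 : F) = 2 * 2 := by norm_num
    rw [this, map_mul, h21, one_mul]
  obtain ⟨u, hu, hut⟩ := hS.ex v hv (2 + π) ((v.valuation F).map_add_le h21.le hπ1.le) (by
    have e1 : (2 + π) ^ 2 - 4 = π * (4 + π) := by ring
    rw [e1, map_mul, Valuation.map_add_eq_of_lt_left (x := (4 : F)) (y := π) _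
      (by rw [h41]; exact hπ1), h41, mul_one, hπ', WithZero.exp_lt_exp]
    norm_num)
  refine ⟨u, hu, ?_⟩
  have e1 : trd ((u : (Qt a b)ˣ) : Qt a b) - 2 = (trd ((u : (Qt a b)ˣ) : Qt a b) - (2 + π)) + π := by
    ring
  rw [e1, Valuation.map_add_eq_of_lt_right, hπ']
  rw [hπ']
  refine lt_of_le_of_lt hut ?_
  rw [WithZero.exp_lt_exp]; norm_num

theorem not_dv_unip {v : HeightOneSpectrum (𝓞 F)} (ha : v.valuation F (a : F) ≤ 1)
    (hb : v.valuation F (b : F) ≤ 1) {u : Qt a b} (hu : nrd u = 1)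
    (hut : v.valuation F (trd u - 2) = WithZero.exp (-1)) : ¬ Dv v (u - 1) := by
  intro h3
  have h4 := val_nrd_of_Dv ha hb h3
  rw [nrd_sub_one, hu] at h4
  have h5 : (1 : F) - trd u + 1 = -(trd u - 2) := by ring
  rw [h5, Valuation.map_neg, hut, WithZero.exp_le_exp] at h4
  norm_num at h4

/-- Transitivity on the neighbours. -/
theorem Big2.tr {S : Set (HeightOneSpectrum (𝓞 F))} (hS : Big2 a b S)
    {v : HeightOneSpectrum (𝓞 F)} (hv : v ∉ S) {e : ℕ} (he : v.valuation F (e : F) = 1)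
    (H : Subgroup (Qt a b)ˣ)
    (hn : ∀ g ∈ Gam a b S hS.adm, ∀ h ∈ H, g * h * g⁻¹ ∈ H)
    (u : (Qt a b)ˣ) (hu : u ∈ Gam a b S hS.adm)
    (hut2 : v.valuation F (trd ((u : (Qt a b)ˣ) : Qt a b) - 2) = WithZero.exp (-1))
    (hpow : u ^ e ∈ H)
    (x x' : Qt a b) (hx : IntQ S x) (hx' : IntQ S x') (hnx : v.valuation F (nrd x) < 1)
    (hnx' : v.valuation F (nrd x') < 1) (hdx : ¬ Dv v x) (hdx' : ¬ Dv v x') :
    ∃ h ∈ H, h ∈ Gam a b S hS.adm ∧ Dv v (cj x' * (h : Qt a b) * x) := by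
  classical
  have hA := hS.adm
  have hex := hS.ex v hv
  obtain ⟨κ, _, _, ρ, hρ⟩ := exists_res v
  have ha1 := hA.a v hv
  have hb1 := hA.b v hv
  have h21 := hA.two v hv
  have hρa : ρ a ≠ 0 := by rw [Ne, hρ.zero_iff _ ha1.le, ha1]; exact lt_irrefl _
  have hρb : ρ b ≠ 0 := by rw [Ne, hρ.zero_iff _ hb1.le, hb1]; exact lt_irrefl _
  have hρ2 : ρ 2 = 2 := by have := hρ.natCast 2; exact_mod_cast this
  have h2 : (2 : κ) ≠ 0 := by
    rw [← hρ2, Ne, hρ.zero_iff _ h21.le, h21]; exact lt_irrefl _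
  have he' : (e : κ) ≠ 0 := by
    rw [← hρ.natCast e, Ne, hρ.zero_iff _ he.le, he]; exact lt_irrefl _
  obtain ⟨x0, y0, h0⟩ := ff_norm h2 (ρ a) (ρ b) hρa
  let Γ := Gam a b S hA
  have hint : ∀ g : Γ, IntA v ((g : (Qt a b)ˣ) : Qt a b) := fun g => IntQ.at g.2.2 hv
  let M : Γ →* Matrix (Fin 2) (Fin 2) κ :=
    { toFun := fun g => mat ρ a x0 y0 ((g : (Qt a b)ˣ) : Qt a b)
      map_one' := mat_one hρ
      map_mul' := fun g g' => mat_mul hρ ha1.le hb1.le h0 (hint g) (hint g') }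
  have hM : ∀ g : Γ, M g = mat ρ a x0 y0 ((g : (Qt a b)ˣ) : Qt a b) := fun g => rfl
  have hdet : ∀ g : Γ, (M g).det = 1 := fun g => by
    rw [hM, det_mat hρ ha1.le hb1.le h0 (hint g), g.2.1, hρ.one]
  have htr : ∀ g : Γ, (M g).trace = ρ (trd ((g : (Qt a b)ˣ) : Qt a b)) := fun g => by
    rw [hM, trace_mat, trd, hρ.mul _ _ h21.le (hint g).1, hρ2]
  have htrint : ∀ g : Γ, v.valuation F (trd ((g : (Qt a b)ˣ) : Qt a b)) ≤ 1 := fun g => by
    rw [trd, map_mul]; exact mul_le_one' h21.le (hint g).1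
  have hexp : (WithZero.exp (-2 : ℤ) : Z0) < 1 := by
    rw [← WithZero.exp_zero, WithZero.exp_lt_exp]; norm_num
  have h41 : v.valuation F (4 : F) = 1 := by
    have : (4 : F) = 2 * 2 := by norm_num
    rw [this, map_mul, h21, one_mul]
  have hu1 : M ⟨u, hu⟩ ≠ 1 := by
    intro h1
    have h2' : mat ρ a x0 y0 ((u : Qt a b) - 1) = 0 := by
      rw [mat_sub hρ (hint ⟨u, hu⟩) ⟨by simp, by simp, by simp, by simp⟩, mat_one hρ, ← h1, hM,
        sub_self]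
    have h3 : Dv v ((u : Qt a b) - 1) := by
      rw [← mat_eq_zero hρ h2 hρa hρb h0]
      · exact h2'
      · exact IntQ.at (hu.2.sub IntQ.one) hv
    exact not_dv_unip ha1.le hb1.le hu.1 hut2 h3
  have hutr : (M ⟨u, hu⟩).trace = 2 := by
    rw [htr, ← hρ2, hρ.eq_iff (htrint ⟨u, hu⟩) h21.le]
    change v.valuation F (trd (u : Qt a b) - 2) < 1
    rw [hut2, ← WithZero.exp_zero, WithZero.exp_lt_exp]; norm_num
  obtain ⟨t, ht4, ht⟩ := exists_ellip (κ := κ) h2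
  obtain ⟨z, hz1, hz⟩ := hρ.surj t
  obtain ⟨s, hs, hst⟩ := hex z hz1 (by
    have h3 : v.valuation F (z ^ 2 - 4) = 1 := by
      have hz2 : v.valuation F (z ^ 2) ≤ 1 := by rw [map_pow]; exact pow_le_one' hz1 2
      refine le_antisymm ((v.valuation F).map_sub_le hz2 h41.le) ?_
      by_contra hlt
      rw [not_le] at hlt
      apply ht4
      have h5 := (hρ.eq_iff hz2 h41.le).mpr hlt
      have h6 : ρ 4 = 4 := by have := hρ.natCast 4; exact_mod_cast this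
      rw [sq, hρ.mul _ _ hz1 hz1, hz, h6] at h5
      rw [← h5]; ring
    rw [h3]; exact hexp)
  have hstr : (M ⟨s, hs⟩).trace = t := by
    rw [htr, ← hz, hρ.eq_iff (htrint ⟨s, hs⟩) hz1]
    exact lt_of_le_of_lt hst hexp
  have hAx : IntA v x := IntQ.at hx hv
  have hAx' : IntA v x' := IntQ.at hx' hv
  have hne : ∀ {y : Qt a b}, IntA v y → ¬ Dv v y → ∃ w : Fin 2 → κ, mat ρ a x0 y0 y *ᵥ w ≠ 0 := by
    intro y hy hd
    by_contra hcon
    push Not at hcon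
    apply hd
    rw [← mat_eq_zero hρ h2 hρa hρb h0 hy]
    refine Matrix.ext_of_mulVec_single fun i => ?_
    rw [hcon, Matrix.zero_mulVec]
  obtain ⟨w, hw⟩ := hne hAx hdx
  obtain ⟨w', hw'⟩ := hne hAx' hdx'
  obtain ⟨h, hh, c, hc⟩ := mat_transitive h2 M he' ⟨u, hu⟩ ⟨s, hs⟩ (hdet _) hutr hu1
    (ht _ (hdet _) hstr) (H.subgroupOf Γ)
    (fun g k hk => hn g g.2 k hk) hpow _ _ hw hw'
  refine ⟨h, hh, h.2, ?_⟩
  have hdet0 : (mat ρ a x0 y0 x).det = 0 := by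
    rw [det_mat hρ ha1.le hb1.le h0 hAx, hρ.zero_iff _ (hx.nrd hA v hv)]; exact hnx
  have hdet0' : (mat ρ a x0 y0 x').det = 0 := by
    rw [det_mat hρ ha1.le hb1.le h0 hAx', hρ.zero_iff _ (hx'.nrd hA v hv)]; exact hnx'
  have hAcj : IntA v (cj x') := IntQ.at hx'.cj hv
  have hAm : IntA v (cj x' * ((h : (Qt a b)ˣ) : Qt a b)) :=
    IntQ.at (IntQ.mul hA hx'.cj h.2.2) hv
  rw [← mat_eq_zero hρ h2 hρa hρb h0 (IntQ.at (IntQ.mul hA (IntQ.mul hA hx'.cj h.2.2) hx) hv),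
    mat_mul hρ ha1.le hb1.le h0 hAm hAx, mat_mul hρ ha1.le hb1.le h0 hAcj (hint h),
    mat_cj hρ hAx']
  refine Matrix.ext_of_mulVec_single fun i => ?_
  obtain ⟨d, hd⟩ := exists_smul hdet0 hw (Pi.single i 1)
  rw [← Matrix.mulVec_mulVec, ← Matrix.mulVec_mulVec, hd, Matrix.mulVec_smul]
  have hc' : mat ρ a x0 y0 ((h : (Qt a b)ˣ) : Qt a b) *ᵥ (mat ρ a x0 y0 x *ᵥ w) =
      c • (mat ρ a x0 y0 x' *ᵥ w') := hc
  rw [hc', smul_smul, Matrix.mulVec_smul, Matrix.mulVec_mulVec, Matrix.adjugate_mul, hdet0',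
    zero_smul, Matrix.zero_mulVec, smul_zero, Matrix.zero_mulVec]

/-- The whole group is transitive on the neighbours. -/
theorem Big2.tr_top {S : Set (HeightOneSpectrum (𝓞 F))} (hS : Big2 a b S)
    {v : HeightOneSpectrum (𝓞 F)} (hv : v ∉ S)
    (x x' : Qt a b) (hx : IntQ S x) (hx' : IntQ S x') (hnx : v.valuation F (nrd x) < 1)
    (hnx' : v.valuation F (nrd x') < 1) (hdx : ¬ Dv v x) (hdx' : ¬ Dv v x') :
    ∃ h ∈ Gam a b S hS.adm, Dv v (cj x' * (h : Qt a b) * x) := by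
  obtain ⟨u, hu, hut⟩ := hS.exists_unip hv
  obtain ⟨h, hh, -, hd⟩ := hS.tr hv (e := 1) (by simp) (Gam a b S hS.adm)
    (fun g hg h hh => mul_mem (mul_mem hg hh) (inv_mem hg)) u hu hut (pow_mem hu 1)
    x x' hx hx' hnx hnx' hdx hdx'
  exact ⟨h, hh, hd⟩

end Vale.Agent.P011NQ
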